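import Vale.Agent.P239.Bdl.B13
import Vale.Agent.P073.IoD

/-!
# P260: charts, metrizability, invariance of domain for manifolds
-/

set_option autoImplicit false
set_option linter.all false

namespace Vale.Agent.P260

open Metric Set Topology

/-- small coordinate charts -/
theorem exists_chart {n : ℕ} {X : Type*} [TopologicalSpace X]
    [ChartedSpace (EuclideanSpace ℝ (Fin n)) X] (x : X) {U : Set X} (hU : U ∈ 𝓝 x) :
    ∃ β : (Fin n → ℝ) → X, IsOpenEmbedding β ∧ β 0 = x ∧ range β ⊆ U := by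
  let c := chartAt (EuclideanSpace ℝ (Fin n)) x
  have hx : x ∈ c.source := mem_chart_source _ x
  have hW : IsOpen (c.target ∩ c.symm ⁻¹' (interior U)) :=
    c.isOpen_inter_preimage_symm isOpen_interior
  have hxW : c x ∈ c.target ∩ c.symm ⁻¹' (interior U) := by
    refine ⟨c.map_source hx, ?_⟩
    rw [mem_preimage, c.left_inv hx]
    exact mem_interior_iff_mem_nhds.2 hU
  obtain ⟨r, hr, hball⟩ := Metric.isOpen_iff.1 hW (c x) hxW
  let u : OpenPartialHomeomorph (EuclideanSpace ℝ (Fin n)) (EuclideanSpace ℝ (Fin n)) :=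
    OpenPartialHomeomorph.univBall (c x) r
  have hu : ∀ y, u y ∈ ball (c x) r := by
    intro y
    rw [← OpenPartialHomeomorph.univBall_target (c x) hr]
    exact u.map_source (by rw [OpenPartialHomeomorph.univBall_source]; trivial)
  let g : OpenPartialHomeomorph (EuclideanSpace ℝ (Fin n)) X := u.trans c.symm
  have hg : g.source = univ := by
    rw [OpenPartialHomeomorph.trans_source]
    refine eq_univ_of_forall fun y => ⟨?_, ?_⟩
    · rw [OpenPartialHomeomorph.univBall_source]; trivial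
    · exact (hball (hu y)).1
  let L : (Fin n → ℝ) ≃ₜ EuclideanSpace ℝ (Fin n) :=
    (EuclideanSpace.equiv (Fin n) ℝ).symm.toHomeomorph
  refine ⟨fun y => g (L y), (g.isOpenEmbedding hg).comp L.isOpenEmbedding, ?_, ?_⟩
  · have h0 : L 0 = 0 := map_zero (EuclideanSpace.equiv (Fin n) ℝ).symm
    change c.symm (u (L 0)) = x
    rw [h0]
    have h1 : u 0 = c x := OpenPartialHomeomorph.univBall_apply_zero _ _
    rw [h1, c.left_inv hx]
  · rintro _ ⟨y, rfl⟩
    exact interior_subset (hball (hu (L y))).2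

/-- closed manifolds are metrizable -/
theorem metrizable (n : ℕ) (X : Type*) [TopologicalSpace X] [T2Space X] [CompactSpace X]
    [ChartedSpace (EuclideanSpace ℝ (Fin n)) X] : TopologicalSpace.MetrizableSpace X := by
  have : SecondCountableTopology X :=
    ChartedSpace.secondCountable_of_sigmaCompact (EuclideanSpace ℝ (Fin n)) X
  infer_instance

/-- invariance of domain for manifolds -/
theorem isOpen_image {n : ℕ} {X Y : Type*} [TopologicalSpace X] [TopologicalSpace Y]
    [ChartedSpace (EuclideanSpace ℝ (Fin n)) X] [ChartedSpace (EuclideanSpace ℝ (Fin n)) Y]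
    {f : X → Y} {W : Set X} (hW : IsOpen W) (hf : ContinuousOn f W) (hinj : InjOn f W) :
    IsOpen (f '' W) := by
  rw [isOpen_iff_mem_nhds]
  rintro _ ⟨x, hx, rfl⟩
  obtain ⟨γ, hγ, hγ0, -⟩ := exists_chart (n := n) (f x) Filter.univ_mem
  have hn : W ∩ f ⁻¹' (range γ) ∈ 𝓝 x :=
    Filter.inter_mem (hW.mem_nhds hx) ((hf.continuousAt (hW.mem_nhds hx)).preimage_mem_nhds
      (hγ.isOpen_range.mem_nhds ⟨0, hγ0⟩))
  obtain ⟨β, hβ, hβ0, hβr⟩ := exists_chart (n := n) x hn
  choose F hF using fun u : Fin n → ℝ => (hβr ⟨u, rfl⟩).2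
  have hFc : Continuous F := by
    rw [hγ.isEmbedding.continuous_iff]
    have : γ ∘ F = fun u => f (β u) := funext hF
    rw [this]
    exact hf.comp_continuous hβ.continuous fun u => (hβr ⟨u, rfl⟩).1
  have hFi : Function.Injective F := by
    intro u v h
    apply hβ.injective
    apply hinj (hβr ⟨u, rfl⟩).1 (hβr ⟨v, rfl⟩).1
    rw [← hF u, ← hF v, h]
  have hop : IsOpen (F '' univ) :=
    Vale.Agent.P073.Sep.isOpen_image_of_injOn isOpen_univ hFc.continuousOn hFi.injOn
  refine Filter.mem_of_superset ((hγ.isOpenMap _ hop).mem_nhds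
    ⟨F 0, ⟨0, trivial, rfl⟩, by rw [hF 0, hβ0]⟩) ?_
  rintro _ ⟨_, ⟨u, -, rfl⟩, rfl⟩
  exact ⟨β u, (hβr ⟨u, rfl⟩).1, (hF u).symm⟩

end Vale.Agent.P260
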