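import Vale.Agent.P260.Chart

/-!
# P260: the mod 2 local degree of small cycles

Small cycles are chains on lists (`Vale.Agent.P239.M`). The local degree `dg` of a small cycle is
locally constant, independent of the chart, and constant on connected manifolds.
-/

set_option autoImplicit false
set_option linter.all false

namespace Vale.Agent.P260

open Metric Set Topology
open Vale.Agent.P239.M

section Local

variable {X : Type*} [MetricSpace X] {n : ℕ}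

theorem sm_mono {a b : ℝ} {l : List X} (h : a ≤ b) (hl : Sm a l) : Sm b l :=
  fun x hx y hy => (hl x hx y hy).trans_le h

/-- small balls about a point of a chart are in the chart -/
theorem ball_chart {β : (Fin n → ℝ) → X} (hβ : IsOpenEmbedding β) {x : X} (hx : x ∈ β '' Q n 2)
    {ρ : ℝ} (hρ : 0 < ρ) : ∃ ρ' > 0, ρ' / 4 ≤ ρ ∧ ball x ρ' ⊆ β '' Q n 3 := by
  obtain ⟨ρ₁, hρ₁, hm⟩ := chart_mod hβ (show (2 : ℝ) < 3 by norm_num) one_pos
  refine ⟨min ρ₁ ρ, lt_min hρ₁ hρ, ?_, fun y hy => ?_⟩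
  · have := min_le_right ρ₁ ρ
    have h0 : 0 < min ρ₁ ρ := lt_min hρ₁ hρ
    linarith
  · obtain ⟨u, hu, hux⟩ := hx
    obtain ⟨v, hv, hvy, _⟩ := hm u hu y (by
      rw [hux, dist_comm]; exact (mem_ball.1 hy).trans_le (min_le_left _ _))
    exact ⟨v, hv, hvy⟩

theorem Q_sub {β : (Fin n → ℝ) → X} {r s : ℝ} (h : r ≤ s) : β '' Q n r ⊆ β '' Q n s :=
  image_mono (closedBall_subset_closedBall h)

open Classical in
/-- cutting a small chain to a ball does not change the degree near the centre -/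
theorem dg_cut {β : (Fin n → ℝ) → X} (hβ : IsOpenEmbedding β) {ρ : ℝ} (hρ : 0 < ρ) :
    ∃ κ > 0, ∀ c : Ch (ZMod 2) X, Sup (Sm κ) c → ∀ x y : X, y ∈ β '' Q n 7 → dist y x ≤ ρ / 4 →
      dg β (c.filter (In (ball x (ρ / 2)))) y = dg β c y := by
  obtain ⟨κ, hκ, h⟩ := dg_far hβ (show (0 : ℝ) < ρ / 4 by linarith)
  refine ⟨κ, hκ, fun c hc x y hy hyx => ?_⟩
  have h1 := h (c.filter (fun l => ¬ In (ball x (ρ / 2)) l)) y hy (by
    intro l hl
    rw [Finsupp.support_filter, Finset.mem_filter] at hl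
    refine ⟨hc l hl.1, ?_⟩
    have h2 := hl.2
    unfold In at h2
    push Not at h2
    obtain ⟨z, hz, hzb⟩ := h2
    refine ⟨z, hz, ?_⟩
    rw [mem_ball, not_lt] at hzb
    have := dist_triangle z y x
    rw [dist_comm z y] at this
    linarith)
  have e := Finsupp.filter_add_filter_not c (In (ball x (ρ / 2)))
  have h3 := inv_dg_add β (c.filter (In (ball x (ρ / 2))))
    (c.filter (fun l => ¬ In (ball x (ρ / 2)) l)) y
  rw [e, h1.1, add_zero] at h3
  exact h3.symm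

/-- the degree of a small chain is locally constant far from its boundary -/
theorem dg_near (hn : 0 < n) {β : (Fin n → ℝ) → X} (hβ : IsOpenEmbedding β) {x : X}
    (hx : x ∈ β '' Q n 2) {ρ : ℝ} (hρ : 0 < ρ) : ∃ r > 0, ∃ κ > 0, ∀ c : Ch (ZMod 2) X,
      Sup (fun l => l.length = n + 1 ∧ Sm κ l) c → Sup (fun l => ∀ y ∈ l, ρ ≤ dist y x) (bd c) →
      ∀ y : X, dist y x < r → dg β c y = dg β c x := by
  classical
  obtain ⟨ρ₁, hρ₁, hle, hball⟩ := ball_chart hβ hx hρ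
  obtain ⟨r, hr, κ₁, hκ₁, hcell⟩ := inv_cell hn hβ hρ₁
  obtain ⟨κ₂, hκ₂, hcut⟩ := dg_cut hβ hρ₁
  refine ⟨min r (ρ₁ / 4), lt_min hr (by linarith), min κ₁ (min κ₂ (ρ₁ / 4)),
    lt_min hκ₁ (lt_min hκ₂ (by linarith)), fun c hc hb y hy => ?_⟩
  have hy4 : dist y x ≤ ρ₁ / 4 := (hy.trans_le (min_le_right _ _)).le
  have hyQ : y ∈ β '' Q n 7 := Q_sub (by norm_num) (hball (mem_ball.2 (by linarith)))
  have hxQ : x ∈ β '' Q n 7 := Q_sub (by norm_num) hx
  have hs : Sup (Sm κ₂) c := Sup.mono (fun l hl =>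
    sm_mono ((min_le_right _ _).trans (min_le_left _ _)) hl.2) hc
  rw [← hcut c hs x y hyQ hy4, ← hcut c hs x x hxQ (by rw [dist_self]; linarith)]
  refine hcell _ x hx ?_ (hball.trans (Q_sub (by norm_num))) ?_ y (hy.trans_le (min_le_left _ _))
  · intro l hl
    rw [Finsupp.support_filter, Finset.mem_filter] at hl
    exact ⟨(hc l hl.1).1, sm_mono (min_le_left _ _) (hc l hl.1).2, hl.2⟩
  · refine inv_bdfar (Sup.mono (fun l hl =>
      sm_mono ((min_le_right _ _).trans (min_le_right _ _)) hl.2) hc) ?_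
    exact Sup.mono (fun l hl y hy => hle.trans (hl y hy)) hb

/-- if one degree vanishes, so does the other -/
theorem dg_zero (hn : 0 < n) {β β' : (Fin n → ℝ) → X} (hβ : IsOpenEmbedding β)
    (hβ' : IsOpenEmbedding β') {x : X} (hx : x ∈ β '' Q n 2) (hx' : x ∈ β' '' Q n 2)
    {ρ : ℝ} (hρ : 0 < ρ) : ∃ κ > 0, ∀ c : Ch (ZMod 2) X,
      Sup (fun l => l.length = n + 1 ∧ Sm κ l) c → Sup (fun l => ∀ y ∈ l, ρ ≤ dist y x) (bd c) →
      dg β' c x = 0 → dg β c x = 0 := by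
  classical
  obtain ⟨ρ₁, hρ₁, hle, hball⟩ := ball_chart hβ' hx' hρ
  obtain ⟨r, hr, hzero⟩ := inv_zero hn hβ' (ld1S hn hβ') hρ₁
  obtain ⟨k1, hk1, hb⟩ := dg_bd hβ
  obtain ⟨k2, hk2, hf⟩ := dg_far hβ hr
  obtain ⟨κ₁, hκ₁, hz⟩ := hzero (min k1 k2) (lt_min hk1 hk2)
  obtain ⟨κ₂, hκ₂, hcut⟩ := dg_cut hβ hρ₁
  obtain ⟨κ₃, hκ₃, hcut'⟩ := dg_cut hβ' hρ₁
  refine ⟨min (min κ₁ κ₂) (min κ₃ (ρ₁ / 4)), lt_min (lt_min hκ₁ hκ₂)
    (lt_min hκ₃ (by linarith)), fun c hc hbc h0 => ?_⟩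
  have hxQ : x ∈ β '' Q n 7 := Q_sub (by norm_num) hx
  have hxQ' : x ∈ β' '' Q n 7 := Q_sub (by norm_num) hx'
  have h4 : dist x x ≤ ρ₁ / 4 := by rw [dist_self]; linarith
  have hs2 : Sup (Sm κ₂) c := Sup.mono (fun l hl =>
    sm_mono ((min_le_left _ _).trans (min_le_right _ _)) hl.2) hc
  have hs3 : Sup (Sm κ₃) c := Sup.mono (fun l hl =>
    sm_mono ((min_le_right _ _).trans (min_le_left _ _)) hl.2) hc
  rw [← hcut c hs2 x x hxQ h4]
  rw [← hcut' c hs3 x x hxQ' h4] at h0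
  obtain ⟨e, cm, hce, he, hcm⟩ := hz (c.filter (In (ball x (ρ₁ / 2)))) x hx' (by
      intro l hl
      rw [Finsupp.support_filter, Finset.mem_filter] at hl
      exact ⟨(hc l hl.1).1, sm_mono ((min_le_left _ _).trans (min_le_left _ _)) (hc l hl.1).2,
        hl.2⟩)
    (hball.trans (Q_sub (by norm_num)))
    (inv_bdfar (Sup.mono (fun l hl =>
      sm_mono ((min_le_right _ _).trans (min_le_right _ _)) hl.2) hc)
      (Sup.mono (fun l hl y hy => hle.trans (hl y hy)) hbc)) h0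
  rw [hce, inv_dg_add, (hb e (Sup.mono (fun l hl => sm_mono (min_le_left _ _) hl) he) x hxQ).1,
    (hf cm x hxQ (Sup.mono (fun l hl => ⟨sm_mono (min_le_right _ _) hl.1, hl.2⟩) hcm)).1, add_zero]

/-- the degree does not depend on the chart -/
theorem dg_indep (hn : 0 < n) {β β' : (Fin n → ℝ) → X} (hβ : IsOpenEmbedding β)
    (hβ' : IsOpenEmbedding β') {x : X} (hx : x ∈ β '' Q n 2) (hx' : x ∈ β' '' Q n 2)
    {ρ : ℝ} (hρ : 0 < ρ) : ∃ κ > 0, ∀ c : Ch (ZMod 2) X,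
      Sup (fun l => l.length = n + 1 ∧ Sm κ l) c → Sup (fun l => ∀ y ∈ l, ρ ≤ dist y x) (bd c) →
      dg β c x = dg β' c x := by
  obtain ⟨κ₁, hκ₁, h1⟩ := dg_zero hn hβ hβ' hx hx' hρ
  obtain ⟨κ₂, hκ₂, h2⟩ := dg_zero hn hβ' hβ hx' hx hρ
  refine ⟨min κ₁ κ₂, lt_min hκ₁ hκ₂, fun c hc hb => ?_⟩
  have h3 := h1 c (Sup.mono (fun l hl => ⟨hl.1, sm_mono (min_le_left _ _) hl.2⟩) hc) hb
  have h4 := h2 c (Sup.mono (fun l hl => ⟨hl.1, sm_mono (min_le_right _ _) hl.2⟩) hc) hb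
  have key : ∀ a b : ZMod 2, (b = 0 → a = 0) → (a = 0 → b = 0) → a = b := by decide
  exact key _ _ h3 h4

/-- small cycles -/
def Cyc (n : ℕ) (δ : ℝ) (c : Ch (ZMod 2) X) : Prop :=
  bd c = 0 ∧ Sup (fun l => l.length = n + 1 ∧ Sm δ l) c

theorem Cyc.mono {a b : ℝ} {c : Ch (ZMod 2) X} (h : a ≤ b) (hc : Cyc n a c) : Cyc n b c :=
  ⟨hc.1, Sup.mono (fun l hl => ⟨hl.1, sm_mono h hl.2⟩) hc.2⟩

theorem Cyc.far {a : ℝ} {c : Ch (ZMod 2) X} (hc : Cyc n a c) (P : List X → Prop) :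
    Sup P (bd c) := by rw [hc.1]; exact Sup.zero

/-- the degree of a small cycle is constant on a connected manifold -/
theorem dg_conn (hn : 0 < n) [PreconnectedSpace X]
    (hch : ∀ x : X, ∃ β : (Fin n → ℝ) → X, IsOpenEmbedding β ∧ β 0 = x)
    {β β' : (Fin n → ℝ) → X} (hβ : IsOpenEmbedding β) (hβ' : IsOpenEmbedding β') {x x' : X}
    (hx : x ∈ β '' Q n 2) (hx' : x' ∈ β' '' Q n 2) : ∃ κ > 0, ∀ c : Ch (ZMod 2) X,
      Cyc n κ c → dg β c x = dg β' c x' := by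
  choose γ hγ hγ0 using hch
  have h0 : ∀ x, x ∈ γ x '' Q n 2 := fun x => ⟨0, mem_closedBall_self (by norm_num), hγ0 x⟩
  let P : X → X → Prop := fun x y => ∃ κ > 0, ∀ c : Ch (ZMod 2) X, Cyc n κ c →
    dg (γ x) c x = dg (γ y) c y
  have hsymm : ∀ x y, P x y → P y x := fun x y ⟨κ, hκ, h⟩ =>
    ⟨κ, hκ, fun c hc => (h c hc).symm⟩
  have htr : IsTrans X P := ⟨by
    rintro x y z ⟨κ, hκ, h⟩ ⟨κ', hκ', h'⟩
    exact ⟨min κ κ', lt_min hκ hκ', fun c hc => (h c (hc.mono (min_le_left _ _))).trans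
      (h' c (hc.mono (min_le_right _ _)))⟩⟩
  have hloc : ∀ x, ∀ᶠ y in 𝓝 x, P x y := by
    intro x
    obtain ⟨r, hr, κ₁, hκ₁, hnear⟩ := dg_near hn (hγ x) (h0 x) one_pos
    have h1 : ball x r ∈ 𝓝 x := ball_mem_nhds x hr
    have h2 : γ x '' Q n 2 ∈ 𝓝 x := by
      refine Filter.mem_of_superset (((hγ x).isOpenMap _ isOpen_ball).mem_nhds
        ⟨0, mem_ball_self (show (0 : ℝ) < 2 by norm_num), hγ0 x⟩) (image_mono ball_subset_closedBall)
    filter_upwards [h1, h2] with y hy hyQ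
    obtain ⟨κ₂, hκ₂, hind⟩ := dg_indep hn (hγ x) (hγ y) hyQ (h0 y) one_pos
    refine ⟨min κ₁ κ₂, lt_min hκ₁ hκ₂, fun c hc => ?_⟩
    rw [← hnear c (hc.mono (min_le_left _ _)).2 (hc.far _) y hy]
    exact hind c (hc.mono (min_le_right _ _)).2 (hc.far _)
  have hall : P x x' := PreconnectedSpace.induction₂' P
    (fun z => (hloc z).mono fun y hy => ⟨hy, hsymm _ _ hy⟩) htr x x'
  obtain ⟨κ, hκ, h⟩ := hall
  obtain ⟨κ₁, hκ₁, h1⟩ := dg_indep hn hβ (hγ x) hx (h0 x) one_pos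
  obtain ⟨κ₂, hκ₂, h2⟩ := dg_indep hn (hγ x') hβ' (h0 x') hx' one_pos
  refine ⟨min κ (min κ₁ κ₂), lt_min hκ (lt_min hκ₁ hκ₂), fun c hc => ?_⟩
  have hc1 := hc.mono ((min_le_right _ _).trans (min_le_left _ _))
  have hc2 := hc.mono ((min_le_right _ _).trans (min_le_right _ _))
  rw [h1 c hc1.2 (hc1.far _), h c (hc.mono (min_le_left _ _)), h2 c hc2.2 (hc2.far _)]

end Local

section Fund

variable {X : Type*} [MetricSpace X] {n : ℕ}

/-- closed manifolds have small cycles of degree one -/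
theorem exists_fund (hn : 0 < n) [CompactSpace X]
    (hch : ∀ x : X, ∃ β : (Fin n → ℝ) → X, IsOpenEmbedding β ∧ β 0 = x)
    {β : (Fin n → ℝ) → X} (hβ : IsOpenEmbedding β) {x : X} (hx : x ∈ β '' Q n 2) :
    ∀ δ > 0, ∃ μ : Ch (ZMod 2) X, Cyc n δ μ ∧ dg β μ x = 1 := by
  choose γ hγ hγ0 using hch
  have hnb : ∀ x, γ x '' Q n 1 ∈ 𝓝 x := fun x => by
    have h1 : ball (0 : Fin n → ℝ) 1 ⊆ Q n 1 := ball_subset_closedBall
    refine Filter.mem_of_superset ?_ (image_mono h1)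
    refine ((hγ x).isOpenMap _ isOpen_ball).mem_nhds ?_
    exact ⟨0, mem_ball_self one_pos, hγ0 x⟩
  obtain ⟨t, -, ht⟩ := (isCompact_univ (X := X)).elim_nhds_subcover (fun x => γ x '' Q n 1)
    fun x _ => hnb x
  let e := t.equivFin
  let b : Fin t.card → (Fin n → ℝ) → X := fun a => γ (e.symm a)
  have hb : ∀ a, IsOpenEmbedding (b a) := fun a => hγ _
  have hL : ∀ a, LD1S (b a) := fun a => ld1S hn (hb a)
  have hI : ∀ a c, InvS (b a) (b c) := fun a c => invS hn (hb a) (hb c) (hL c)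
  obtain ⟨η, hη, hF⟩ := fundS hn b hb hL hI
  have hcov : ∀ y : X, ∃ a, y ∈ b a '' Q n 1 := by
    intro y
    obtain ⟨z, hz, hyz⟩ := mem_iUnion₂.1 (ht (mem_univ y))
    exact ⟨e ⟨z, hz⟩, by simpa [b] using hyz⟩
  obtain ⟨a, ha⟩ := hcov x
  have ha2 : x ∈ b a '' Q n 2 := Q_sub (by norm_num) ha
  obtain ⟨κ, hκ, hind⟩ := dg_indep hn hβ (hb a) hx ha2 one_pos
  intro δ hδ
  obtain ⟨μ, h1, h2, h3⟩ := hF (min δ κ) (lt_min hδ hκ)
  have hbd : bd μ = 0 := by
    have h4 : Sup (fun l : List X => l.length = n) (bd μ) :=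
      Sup.bd (fun l l' hs hlen hl => by have := hl.1; omega) h1
    rw [← Finsupp.support_eq_empty, Finset.eq_empty_iff_forall_notMem]
    intro l hl
    have hne : l ≠ [] := by
      intro h; have := h4 l hl; rw [h] at this; simp at this; omega
    obtain ⟨y, hy⟩ := List.exists_mem_of_ne_nil l hne
    obtain ⟨a', ha'⟩ := hcov y
    have := h2 l hl a' y hy y ha'
    rw [dist_self] at this
    linarith
  have hc : Cyc n (min δ κ) μ := ⟨hbd, h1⟩
  refine ⟨μ, hc.mono (min_le_left _ _), ?_⟩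
  rw [hind μ (hc.mono (min_le_right _ _)).2 (hc.far _)]
  exact (h3 a x ha2 ⟨a, x, ha, by rw [dist_self]; exact hη⟩).1

end Fund

section Htpy

variable {Z X : Type*} [MetricSpace Z] [MetricSpace X]

/-- homotopic maps push small cycles to homologous cycles -/
theorem htpy_bd [CompactSpace Z] (H : ℝ → Z → X)
    (hH : ContinuousOn (fun p : ℝ × Z => H p.1 p.2) (Icc (0 : ℝ) 1 ×ˢ univ)) {κ : ℝ} (hκ : 0 < κ) :
    ∃ δ > 0, ∀ c : Ch (ZMod 2) Z, bd c = 0 → Sup (Sm δ) c →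
      ∃ e : Ch (ZMod 2) X, Sup (Sm κ) e ∧ pf (H 1) c = pf (H 0) c + bd e := by
  have hcomp : IsCompact (Icc (0 : ℝ) 1 ×ˢ (univ : Set Z)) := isCompact_Icc.prod isCompact_univ
  obtain ⟨η, hη, hu⟩ := Metric.uniformContinuousOn_iff.1
    (hcomp.uniformContinuousOn_of_continuous hH) κ hκ
  obtain ⟨N, hN⟩ := exists_nat_gt (1 / η)
  have hN0 : 0 < N := by
    rcases Nat.eq_zero_or_pos N with h | h
    · rw [h] at hN
      have : 0 < 1 / η := by positivity
      simp at hN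
      linarith
    · exact h
  have hNR : (0 : ℝ) < N := by exact_mod_cast hN0
  have hstep : 1 / (N : ℝ) < η := by
    rw [div_lt_iff₀ hNR]
    rw [div_lt_iff₀ hη] at hN
    linarith
  refine ⟨η, hη, fun c hc hs => ?_⟩
  refine ⟨∑ a ∈ Finset.range N, pr (H ((a : ℝ) / N)) (H (((a : ℝ) + 1) / N)) c, ?_, ?_⟩
  · have hsum : ∀ s : Finset ℕ, (∀ a ∈ s, a < N) →
        Sup (Sm κ) (∑ a ∈ s, pr (H ((a : ℝ) / N)) (H (((a : ℝ) + 1) / N)) c) := by
      intro s
      induction s using Finset.induction_on with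
      | empty => intro _; rw [Finset.sum_empty]; exact Sup.zero
      | insert a s ha ih =>
        intro h
        rw [Finset.sum_insert ha]
        refine Sup.add ?_ (ih fun b hb => h b (Finset.mem_insert_of_mem hb))
        have haN : a < N := h a (Finset.mem_insert_self _ _)
        have haR : (a : ℝ) + 1 ≤ N := by exact_mod_cast haN
        have ha0 : (0 : ℝ) ≤ a := by positivity
        have hI0 : (a : ℝ) / N ∈ Icc (0 : ℝ) 1 :=
          ⟨by positivity, by rw [div_le_one hNR]; linarith⟩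
        have hI1 : ((a : ℝ) + 1) / N ∈ Icc (0 : ℝ) 1 :=
          ⟨by positivity, by rw [div_le_one hNR]; linarith⟩
        intro l hl
        obtain ⟨m, hm, -, hml⟩ := Box.sup_pr (H ((a : ℝ) / N)) (H (((a : ℝ) + 1) / N)) c l hl
        have hd : ∀ s ∈ ({(a : ℝ) / N, ((a : ℝ) + 1) / N} : Set ℝ),
            ∀ t ∈ ({(a : ℝ) / N, ((a : ℝ) + 1) / N} : Set ℝ), dist s t < η := by
          have e1 : ((a : ℝ) + 1) / N - (a : ℝ) / N = 1 / N := by ring
          have e2 : 0 < 1 / (N : ℝ) := by positivity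
          intro s hs t ht
          rw [Real.dist_eq, abs_lt]
          rcases hs with rfl | hs <;> rcases ht with rfl | ht
          · constructor <;> linarith
          · rw [mem_singleton_iff] at ht; subst ht; constructor <;> linarith
          · rw [mem_singleton_iff] at hs; subst hs; constructor <;> linarith
          · rw [mem_singleton_iff] at ht hs; subst ht; subst hs; constructor <;> linarith
        have hI : ∀ s ∈ ({(a : ℝ) / N, ((a : ℝ) + 1) / N} : Set ℝ), s ∈ Icc (0 : ℝ) 1 := by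
          rintro s (rfl | hs)
          · exact hI0
          · rw [mem_singleton_iff] at hs; subst hs; exact hI1
        have hpt : ∀ y ∈ l, ∃ s ∈ ({(a : ℝ) / N, ((a : ℝ) + 1) / N} : Set ℝ), ∃ x ∈ m, y = H s x := by
          intro y hy
          obtain ⟨x, hx, h | h⟩ := hml y hy
          · exact ⟨_, Or.inl rfl, x, hx, h⟩
          · exact ⟨_, Or.inr rfl, x, hx, h⟩
        intro y hy y' hy'
        obtain ⟨s, hs', x, hx, rfl⟩ := hpt y hy
        obtain ⟨t, ht', x', hx', rfl⟩ := hpt y' hy'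
        refine hu (s, x) ⟨hI s hs', mem_univ _⟩ (t, x') ⟨hI t ht', mem_univ _⟩ ?_
        rw [Prod.dist_eq]
        exact max_lt (hd s hs' t ht') (hs m hm x hx x' hx')
    exact hsum _ fun a ha => Finset.mem_range.1 ha
  · rw [map_sum]
    have : ∀ a ∈ Finset.range N, bd (pr (H ((a : ℝ) / N)) (H (((a : ℝ) + 1) / N)) c) =
        pf (H (((a + 1 : ℕ) : ℝ) / N)) c - pf (H ((a : ℝ) / N)) c := by
      intro a _
      have h := bd_pr (H ((a : ℝ) / N)) (H (((a : ℝ) + 1) / N)) c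
      rw [hc, map_zero, add_zero] at h
      rw [h]; push_cast; rfl
    rw [Finset.sum_congr rfl this, Finset.sum_range_sub (fun a : ℕ => pf (H ((a : ℝ) / N)) c)]
    simp only [div_self hNR.ne', CharP.cast_eq_zero, zero_div]
    abel

/-- the degree is a homotopy invariant -/
theorem dg_htpy {n : ℕ} [CompactSpace Z] (H : ℝ → Z → X)
    (hH : ContinuousOn (fun p : ℝ × Z => H p.1 p.2) (Icc (0 : ℝ) 1 ×ˢ univ))
    {β : (Fin n → ℝ) → X} (hβ : IsOpenEmbedding β) {x : X} (hx : x ∈ β '' Q n 7) :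
    ∃ δ > 0, ∀ c : Ch (ZMod 2) Z, Cyc n δ c → dg β (pf (H 1) c) x = dg β (pf (H 0) c) x := by
  obtain ⟨κ, hκ, hb⟩ := dg_bd hβ
  obtain ⟨δ, hδ, h⟩ := htpy_bd H hH hκ
  refine ⟨δ, hδ, fun c hc => ?_⟩
  obtain ⟨e, he, h1⟩ := h c hc.1 (Sup.mono (fun l hl => hl.2) hc.2)
  rw [h1, inv_dg_add, (hb e he x hx).1, add_zero]

end Htpy

end Vale.Agent.P260
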