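import Vale.Agent.P260.Main

/-!
# P260: maps with a right homotopy inverse are onto; connectedness of fibres
-/

set_option autoImplicit false
set_option linter.all false

namespace Vale.Agent.P260

open Metric Set Topology
open Vale.Agent.P239.M

section Fib

variable {M N : Type*} [MetricSpace M] [MetricSpace N] {n : ℕ}

/-- a compact set that misses a fibre is mapped far from the point -/
theorem far_of_disj {f : M → N} (hf : Continuous f) {C : Set M} (hC : IsCompact C) {y : N}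
    (h : ∀ x ∈ C, f x ≠ y) : ∃ η > 0, ∀ x ∈ C, η ≤ dist (f x) y := by
  rcases C.eq_empty_or_nonempty with hE | hne
  · exact ⟨1, one_pos, fun x hx => by rw [hE] at hx; exact absurd hx (notMem_empty x)⟩
  · obtain ⟨x₁, hx₁, hmin⟩ := hC.exists_isMinOn hne
      ((hf.dist continuous_const).continuousOn (s := C) (f := fun x => dist (f x) y))
    exact ⟨dist (f x₁) y, dist_pos.2 (h x₁ hx₁), fun x hx => hmin hx⟩

/-- a map with a right homotopy inverse is onto -/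
theorem surj_of_right_inv [CompactSpace M] [CompactSpace N] (hn : 0 < n)
    (hchN : ∀ x : N, ∃ β : (Fin n → ℝ) → N, IsOpenEmbedding β ∧ β 0 = x)
    {f : M → N} (hf : Continuous f) {g : N → M} (hg : Continuous g) (H : ℝ → N → N)
    (hH : Continuous (fun p : ℝ × N => H p.1 p.2)) (h0 : H 0 = f ∘ g) (h1 : H 1 = id) :
    Function.Surjective f := by
  intro y₀
  by_contra hcon
  push Not at hcon
  obtain ⟨β, hβ, hβ0⟩ := hchN y₀
  have hy₀ : y₀ ∈ β '' Q n 2 := ⟨0, mem_closedBall_self (by norm_num), hβ0⟩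
  obtain ⟨η, hη, hfar⟩ := far_of_disj hf isCompact_univ (y := y₀) fun x _ => hcon x
  obtain ⟨κ, hκ, hdg⟩ := dg_far hβ hη
  have hfu : UniformContinuous f := CompactSpace.uniformContinuous_of_continuous hf
  obtain ⟨δ, hδ, hu⟩ := Metric.uniformContinuous_iff.1 hfu κ hκ
  obtain ⟨c, hc, hdc⟩ := exists_tot hn hchN hf hg H hH h0 h1 hβ hy₀ δ hδ
  have h2 := (hdg (pf f c) y₀ (Q_sub (by norm_num) hy₀) (Sup.pf f fun l hl => ⟨?_, ?_⟩)).1
  · rw [hdc] at h2
    exact one_ne_zero h2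
  · intro a ha b hb
    obtain ⟨x, hx, rfl⟩ := List.mem_map.1 ha
    obtain ⟨y, hy, rfl⟩ := List.mem_map.1 hb
    exact hu ((hc.2 l hl).2 x hx y hy)
  · have hne : l ≠ [] := by
      intro h
      have := (hc.2 l hl).1
      rw [h] at this
      simp at this
    obtain ⟨x, hx⟩ := List.exists_mem_of_ne_nil l hne
    exact ⟨f x, List.mem_map_of_mem hx, by rw [dist_comm]; exact hfar x (mem_univ x)⟩

/-- a side that misses a nearby fibre has degree zero -/
theorem side_zero [CompactSpace M] {f : M → N} (hf : Continuous f) {y₀ : N} {O B O' B' : Set M}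
    {r ρ : ℝ} (S : Side f y₀ O B O' B' r ρ) (hn : 0 < n) {β : (Fin n → ℝ) → N}
    (hβ : IsOpenEmbedding β) (hy₀ : y₀ ∈ β '' Q n 2) : ∃ r₁ > 0, ∀ y, dist y y₀ < r₁ →
      f ⁻¹' {y} ⊆ O' → ∃ κ > 0, ∀ c : Ch (ZMod 2) M, Cyc n κ c → Dg f β y₀ B c = 0 := by
  classical
  have hfu : UniformContinuous f := CompactSpace.uniformContinuous_of_continuous hf
  obtain ⟨r₁, hr₁, κ₁, hκ₁, hnear⟩ := dg_near hn hβ hy₀ S.hρ
  obtain ⟨r₂, hr₂, -, hball⟩ := ball_chart hβ hy₀ one_pos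
  refine ⟨min r₁ r₂, lt_min hr₁ hr₂, fun y hy hfib => ?_⟩
  have hy1 : dist y y₀ < r₁ := hy.trans_le (min_le_left _ _)
  have hy2 : dist y y₀ < r₂ := hy.trans_le (min_le_right _ _)
  have hyQ : y ∈ β '' Q n 7 := Q_sub (by norm_num) (hball (mem_ball.2 hy2))
  have hdis : Disjoint (closure B) B' := S.disj.closure_left S.oB'
  obtain ⟨η, hη, hfar⟩ := far_of_disj hf (isClosed_closure (s := B)).isCompact (y := y)
    fun x hx hxy => disjoint_left.1 hdis hx (S.symm.OB (hfib hxy))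
  obtain ⟨κ₂, hκ₂, hdg⟩ := dg_far hβ hη
  obtain ⟨δ, hδ, hu⟩ := Metric.uniformContinuous_iff.1 hfu (min κ₁ κ₂) (lt_min hκ₁ hκ₂)
  refine ⟨min δ r, lt_min hδ S.hr, fun c hc => ?_⟩
  have hsm : ∀ l ∈ c.support, Sm (min κ₁ κ₂) (l.map f) := by
    intro l hl a ha b hb
    obtain ⟨x, hx, rfl⟩ := List.mem_map.1 ha
    obtain ⟨y, hy, rfl⟩ := List.mem_map.1 hb
    exact hu (((hc.2 l hl).2 x hx y hy).trans_le (min_le_left _ _))
  have hsupp : ∀ l ∈ (c.filter (In B)).support, l ∈ c.support ∧ In B l := by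
    intro l hl
    rwa [Finsupp.support_filter, Finset.mem_filter] at hl
  unfold Dg
  rw [← hnear (pf f (c.filter (In B))) (Sup.pf f fun l hl => ⟨by
        rw [List.length_map]; exact (hc.2 l (hsupp l hl).1).1,
        sm_mono (min_le_left _ _) (hsm l (hsupp l hl).1)⟩) ?_ y hy1]
  · refine (hdg _ y hyQ (Sup.pf f fun l hl => ⟨sm_mono (min_le_right _ _)
      (hsm l (hsupp l hl).1), ?_⟩)).1
    have hne : l ≠ [] := by
      intro h
      have := (hc.2 l (hsupp l hl).1).1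
      rw [h] at this
      simp at this
    obtain ⟨x, hx⟩ := List.exists_mem_of_ne_nil l hne
    exact ⟨f x, List.mem_map_of_mem hx, by
      rw [dist_comm]; exact hfar x (subset_closure ((hsupp l hl).2 x hx))⟩
  · rw [bd_pf]
    refine Sup.pf f ((side_bd S (min_le_right _ _) hc).mono fun l hl a ha => ?_)
    obtain ⟨x, hx, rfl⟩ := List.mem_map.1 ha
    exact hl x hx

/-- **Connectedness of the fibres.** -/
theorem fib_conn [CompactSpace M] [PreconnectedSpace M] [CompactSpace N] (hn : 0 < n)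
    (hchM : ∀ x : M, ∃ β : (Fin n → ℝ) → M, IsOpenEmbedding β ∧ β 0 = x)
    (hchN : ∀ x : N, ∃ β : (Fin n → ℝ) → N, IsOpenEmbedding β ∧ β 0 = x)
    {f : M → N} (hf : Continuous f) {g : N → M} (hg : Continuous g) (H : ℝ → N → N)
    (hH : Continuous (fun p : ℝ × N => H p.1 p.2)) (h0 : H 0 = f ∘ g) (h1 : H 1 = id)
    {E : Set N} (hE : IsClosed E) (hint : interior (f ⁻¹' E) = ∅)
    (hcell : ∀ y ∉ E, ∃ G₁ G₂ : Set M, CellLike G₁ ∧ CellLike G₂ ∧ f ⁻¹' {y} = G₁ ∪ G₂) :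
    ∀ y, IsConnected (f ⁻¹' {y}) := by
  classical
  have hsurj : Function.Surjective f := surj_of_right_inv hn hchN hf hg H hH h0 h1
  have hne : ∀ y, (f ⁻¹' {y}).Nonempty := fun y => by
    obtain ⟨x, hx⟩ := hsurj y
    exact ⟨x, hx⟩
  -- outside `E`
  have hout : ∀ y ∉ E, IsConnected (f ⁻¹' {y}) := by
    intro y₀ hy₀
    refine ⟨hne y₀, ?_⟩
    obtain ⟨G₁, G₂, hG₁, hG₂, hG⟩ := hcell y₀ hy₀
    rcases (G₁ ∩ G₂).eq_empty_or_nonempty with hd | hd
    · exfalso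
      obtain ⟨R, hR, hball⟩ := Metric.isOpen_iff.1 hE.isOpen_compl y₀ hy₀
      exact no_two hn hchM hchN hf hg H hH h0 h1 hR
        (fun y hy => hcell y (hball (mem_ball.2 hy))) hG₁.1 hG₂.1 hG₁.2.1.nonempty
        hG₂.2.1.nonempty (disjoint_iff_inter_eq_empty.2 hd) hG
    · rw [hG]
      exact hG₁.2.1.isPreconnected.union' hd hG₂.2.1.isPreconnected
  intro y₀
  refine ⟨hne y₀, ?_⟩
  rw [isPreconnected_closed_iff]
  intro t t' ht ht' htt hnt hnt'
  by_contra hemp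
  rw [not_nonempty_iff_eq_empty] at hemp
  have hFc : IsCompact (f ⁻¹' {y₀}) := (isClosed_singleton.preimage hf).isCompact
  have hdF : Disjoint (f ⁻¹' {y₀} ∩ t) (f ⁻¹' {y₀} ∩ t') := by
    rw [disjoint_left]
    rintro x ⟨h1, h2⟩ ⟨-, h3⟩
    have : x ∈ f ⁻¹' {y₀} ∩ (t ∩ t') := ⟨h1, h2, h3⟩
    rw [hemp] at this
    exact this
  obtain ⟨O, B, O', B', r, ρ, S, hFO, hFO'⟩ := exists_side hf (hFc.inter_right ht)
    (hFc.inter_right ht') hdF (by rw [← inter_union_distrib_left, inter_eq_left.2 htt])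
  obtain ⟨β, hβ, hβ0⟩ := hchN y₀
  have hy₀ : y₀ ∈ β '' Q n 2 := ⟨0, mem_closedBall_self (by norm_num), hβ0⟩
  have hfu : UniformContinuous f := CompactSpace.uniformContinuous_of_continuous hf
  obtain ⟨κa, hκa, hadd⟩ := side_add hfu S hn hβ hy₀
  obtain ⟨r₁, hr₁, hz₁⟩ := side_zero hf S hn hβ hy₀
  obtain ⟨r₂, hr₂, hz₂⟩ := side_zero hf S.symm hn hβ hy₀
  have hdO : Disjoint O O' := S.disj.mono S.OB S.symm.OB
  have hpos : 0 < min (min r₁ r₂) ρ := lt_min (lt_min hr₁ hr₂) S.hρ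
  -- the fibres over points outside `E` are on one side
  have hfib : ∀ y ∉ E, dist y y₀ < min (min r₁ r₂) ρ → f ⁻¹' {y} ⊆ O ∨ f ⁻¹' {y} ⊆ O' := by
    intro y hy hyd
    have hsub : f ⁻¹' {y} ⊆ O ∪ O' := by
      intro x hx
      by_contra hcon
      rw [mem_union, not_or] at hcon
      have h3 := S.far x hcon.1 hcon.2
      have h4 : f x = y := hx
      rw [h4] at h3
      have := min_le_right (min r₁ r₂) ρ
      linarith
    have hc := hout y hy
    obtain ⟨x, hx⟩ := hc.nonempty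
    rcases hsub hx with hxO | hxO
    · exact Or.inl (hc.isPreconnected.subset_left_of_subset_union S.oO S.oO' hdO hsub
        ⟨x, hx, hxO⟩)
    · exact Or.inr (hc.isPreconnected.subset_right_of_subset_union S.oO S.oO' hdO hsub
        ⟨x, hx, hxO⟩)
  have hone : (∀ y ∉ E, dist y y₀ < min (min r₁ r₂) ρ → f ⁻¹' {y} ⊆ O) ∨
      (∀ y ∉ E, dist y y₀ < min (min r₁ r₂) ρ → f ⁻¹' {y} ⊆ O') := by
    by_contra hcon
    push Not at hcon
    obtain ⟨⟨y₁, hy₁E, hy₁, hn1⟩, y₂, hy₂E, hy₂, hn2⟩ := hcon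
    have hs1 := (hfib y₁ hy₁E hy₁).resolve_left hn1
    have hs2 := (hfib y₂ hy₂E hy₂).resolve_right hn2
    obtain ⟨κ₁, hκ₁, hd1⟩ := hz₁ y₁ (hy₁.trans_le ((min_le_left _ _).trans (min_le_left _ _))) hs1
    obtain ⟨κ₂, hκ₂, hd2⟩ := hz₂ y₂ (hy₂.trans_le ((min_le_left _ _).trans (min_le_right _ _))) hs2
    obtain ⟨c, hc, hdc⟩ := exists_tot hn hchN hf hg H hH h0 h1 hβ hy₀ (min κa (min κ₁ κ₂))
      (lt_min hκa (lt_min hκ₁ hκ₂))
    have e1 := hadd c (hc.mono (min_le_left _ _))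
    rw [hdc, hd1 c (hc.mono ((min_le_right _ _).trans (min_le_left _ _))),
      hd2 c (hc.mono ((min_le_right _ _).trans (min_le_right _ _)))] at e1
    revert e1
    decide
  have hfin : ∀ (O O' : Set M), IsOpen O' → Disjoint O O' → (f ⁻¹' {y₀} ∩ O').Nonempty →
      (∀ y ∉ E, dist y y₀ < min (min r₁ r₂) ρ → f ⁻¹' {y} ⊆ O) → False := by
    rintro O O' hO' hd ⟨x, hx, hxO⟩ h
    have hx' : f x = y₀ := hx
    have hmem : x ∈ interior (f ⁻¹' E) := by
      rw [mem_interior]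
      refine ⟨O' ∩ f ⁻¹' ball y₀ (min (min r₁ r₂) ρ), ?_, hO'.inter (isOpen_ball.preimage hf),
        hxO, ?_⟩
      · rintro w ⟨hw1, hw2⟩
        by_contra hwE
        exact disjoint_left.1 hd (h (f w) hwE hw2 rfl) hw1
      · rw [mem_preimage, hx']
        exact mem_ball_self hpos
    rw [hint] at hmem
    exact hmem
  rcases hone with h | h
  · obtain ⟨x, hx⟩ := hnt'
    exact hfin O O' S.oO' hdO ⟨x, hx.1, hFO' hx⟩ h
  · obtain ⟨x, hx⟩ := hnt
    exact hfin O' O S.oO hdO.symm ⟨x, hx.1, hFO hx⟩ h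

end Fib

end Vale.Agent.P260
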