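import Vale.Agent.P260.Uniq
import Vale.Agent.P260.Defs

/-!
# P260: filling small cycles near cell-like fibres
-/

set_option autoImplicit false
set_option linter.all false

namespace Vale.Agent.P260

open Metric Set Topology
open Vale.Agent.P239.M

section Fill

variable {M : Type*} [MetricSpace M]

/-- filling of small cycles by a null homotopy -/
theorem fill_local {V U L : Set M} (hVU : V ⊆ U) (hL : IsCompact L) (hLV : L ⊆ V)
    (hnull : (ContinuousMap.inclusion hVU).Nullhomotopic) {s : ℝ} (hs : 0 < s) :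
    ∃ s' > 0, ∀ (m : ℕ) (c : Ch (ZMod 2) M), bd c = 0 →
      Sup (fun l => l.length = m ∧ Sm s' l ∧ In L l) c →
      ∃ e : Ch (ZMod 2) M, bd e = c ∧ Sup (fun l => l.length = m + 1 ∧ Sm s l ∧ In U l) e := by
  classical
  obtain ⟨y₀, ⟨H⟩⟩ := hnull
  let h : ℝ → M → M := fun t x => if hx : x ∈ V then (H (projIcc 0 1 zero_le_one t, ⟨x, hx⟩) : M)
    else if t = 1 then (y₀ : M) else x
  have h0 : h 0 = id := by
    funext x
    by_cases hx : x ∈ V
    · have e1 : projIcc (0 : ℝ) 1 zero_le_one 0 = 0 := projIcc_left zero_le_one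
      simp only [h, dif_pos hx, e1]
      rw [H.apply_zero]
      rfl
    · simp [h, dif_neg hx]
  have h1 : h 1 = fun _ => (y₀ : M) := by
    funext x
    by_cases hx : x ∈ V
    · have e1 : projIcc (0 : ℝ) 1 zero_le_one 1 = 1 := projIcc_right zero_le_one
      simp only [h, dif_pos hx, e1]
      rw [H.apply_one]
      rfl
    · simp [h, dif_neg hx]
  have hU : ∀ t, ∀ x ∈ V, h t x ∈ U := by
    intro t x hx
    simp only [h, dif_pos hx]
    exact Subtype.coe_prop _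
  have hc : ContinuousOn (fun p : ℝ × M => h p.1 p.2) (Icc (0 : ℝ) 1 ×ˢ L) := by
    rw [continuousOn_iff_continuous_restrict]
    have e2 : (Icc (0 : ℝ) 1 ×ˢ L).domRestrict (fun p : ℝ × M => h p.1 p.2) =
        fun p : (Icc (0 : ℝ) 1 ×ˢ L : Set (ℝ × M)) =>
          (H (projIcc 0 1 zero_le_one p.1.1, ⟨p.1.2, hLV p.2.2⟩) : M) := by
      funext p
      change h p.1.1 p.1.2 = _
      exact dif_pos (hLV p.2.2)
    rw [e2]
    refine continuous_subtype_val.comp (H.continuous.comp ?_)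
    refine Continuous.prodMk (continuous_projIcc.comp (continuous_fst.comp
      continuous_subtype_val)) ?_
    exact Continuous.subtype_mk (continuous_snd.comp continuous_subtype_val) _
  have hcomp : IsCompact (Icc (0 : ℝ) 1 ×ˢ L) := isCompact_Icc.prod hL
  obtain ⟨η, hη, hu⟩ := Metric.uniformContinuousOn_iff.1
    (hcomp.uniformContinuousOn_of_continuous hc) s hs
  obtain ⟨N, hN⟩ := exists_nat_gt (1 / η)
  have hN0 : 0 < N := by
    rcases Nat.eq_zero_or_pos N with h | h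
    · rw [h] at hN
      have : 0 < 1 / η := by positivity
      simp at hN
      linarith
    · exact h
  have hNR : (0 : ℝ) < N := by exact_mod_cast hN0
  have hstep : 1 / (N : ℝ) < η := by
    rw [div_lt_iff₀ hNR]
    rw [div_lt_iff₀ hη] at hN
    linarith
  refine ⟨η, hη, fun m c hbc hsc => ⟨Fill.fil (ZMod 2) h y₀ N c, ?_, ?_⟩⟩
  · have := Fill.bd_fil (k := ZMod 2) (x₀ := (y₀ : M)) hN0 h0 c
    rwa [hbc, map_zero, add_zero] at this
  · refine Fill.sup_lin' (Fill.fil (ZMod 2) h y₀ N) c fun l hl => ?_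
    obtain ⟨hl1, hl2, hl3⟩ := hsc l hl
    refine Fill.sup_fil h1 l _ ⟨by simp [hl1], ?_, ?_⟩ fun a ha m' hm hm' =>
      ⟨by rw [hm, hl1], ?_, ?_⟩
    · have hx : ∀ x ∈ ((y₀ : M) :: l.map fun _ => (y₀ : M)), x = y₀ := by
        intro x hx
        rcases List.mem_cons.1 hx with rfl | hx
        · rfl
        · obtain ⟨y, -, rfl⟩ := List.mem_map.1 hx
          rfl
      intro x hx' y hy'
      rw [hx x hx', hx y hy', dist_self]
      exact hs
    · intro x hx
      rcases List.mem_cons.1 hx with rfl | hx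
      · exact y₀.2
      · obtain ⟨y, -, rfl⟩ := List.mem_map.1 hx
        exact y₀.2
    · have haR : (a : ℝ) + 1 ≤ N := by exact_mod_cast ha
      have ha0 : (0 : ℝ) ≤ a := by positivity
      have hI0 : (a : ℝ) / N ∈ Icc (0 : ℝ) 1 :=
        ⟨by positivity, by rw [div_le_one hNR]; linarith⟩
      have hI1 : ((a : ℝ) + 1) / N ∈ Icc (0 : ℝ) 1 :=
        ⟨by positivity, by rw [div_le_one hNR]; linarith⟩
      have e1 : ((a : ℝ) + 1) / N - (a : ℝ) / N = 1 / N := by ring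
      have e2 : 0 < 1 / (N : ℝ) := by positivity
      have hd : ∀ s t : ℝ, (s = (a : ℝ) / N ∨ s = ((a : ℝ) + 1) / N) →
          (t = (a : ℝ) / N ∨ t = ((a : ℝ) + 1) / N) → dist s t < η := by
        rintro s t (rfl | rfl) (rfl | rfl) <;> rw [Real.dist_eq, abs_lt] <;>
          constructor <;> linarith
      have hI : ∀ s : ℝ, (s = (a : ℝ) / N ∨ s = ((a : ℝ) + 1) / N) → s ∈ Icc (0 : ℝ) 1 := by
        rintro s (rfl | rfl)
        · exact hI0
        · exact hI1
      have hpt : ∀ y ∈ m', ∃ s : ℝ, (s = (a : ℝ) / N ∨ s = ((a : ℝ) + 1) / N) ∧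
          ∃ x ∈ l, y = h s x := by
        intro y hy
        obtain ⟨x, hx, h | h⟩ := hm' y hy
        · exact ⟨_, Or.inl rfl, x, hx, h⟩
        · exact ⟨_, Or.inr rfl, x, hx, h⟩
      intro y hy y' hy'
      obtain ⟨s, hs', x, hx, rfl⟩ := hpt y hy
      obtain ⟨t, ht', x', hx', rfl⟩ := hpt y' hy'
      refine hu (s, x) ⟨hI s hs', hl3 x hx⟩ (t, x') ⟨hI t ht', hl3 x' hx'⟩ ?_
      rw [Prod.dist_eq]
      exact max_lt (hd s t hs' ht') (hl2 x hx x' hx')
    · intro y hy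
      obtain ⟨x, hx, rfl | rfl⟩ := hm' y hy
      · exact hU _ x (hLV (hl3 x hx))
      · exact hU _ x (hLV (hl3 x hx))

variable {N : Type*} [MetricSpace N]

/-- the points of `A` that are mapped near `z` -/
def Pn (f : M → N) (A : Set M) (δ : ℝ) (z : N) : Set M := {x | x ∈ A ∧ dist (f x) z < δ}

/-- uniform filling near the fibres over `K` -/
def UFill (f : M → N) (A : Set M) (K : Set N) : Prop :=
  ∀ ε > 0, ∃ δ > 0, ∀ s > 0, ∃ s' > 0, ∀ z ∈ K, ∀ (m : ℕ) (c : Ch (ZMod 2) M), bd c = 0 →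
    Sup (fun l => l.length = m ∧ Sm s' l ∧ In (Pn f A δ z) l) c →
    ∃ e : Ch (ZMod 2) M, bd e = c ∧
      Sup (fun l => l.length = m + 1 ∧ Sm s l ∧ In (Pn f A ε z) l) e

theorem unif_fill {f : M → N} (hf : Continuous f) {A O : Set M} (hA : IsCompact A)
    (hO : IsOpen O) (hOA : O ⊆ A) {K : Set N} (hK : IsCompact K)
    (hcell : ∀ z ∈ K, f ⁻¹' {z} ∩ A ⊆ O ∧ CellLike (f ⁻¹' {z} ∩ A)) : UFill f A K := by
  intro ε hε
  refine hK.induction_on (p := fun S => ∃ δ > 0, ∀ s > 0, ∃ s' > 0, ∀ z ∈ S,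
    ∀ (m : ℕ) (c : Ch (ZMod 2) M), bd c = 0 →
    Sup (fun l => l.length = m ∧ Sm s' l ∧ In (Pn f A δ z) l) c →
    ∃ e : Ch (ZMod 2) M, bd e = c ∧
      Sup (fun l => l.length = m + 1 ∧ Sm s l ∧ In (Pn f A ε z) l) e) ?_ ?_ ?_ ?_
  · exact ⟨1, one_pos, fun s _ => ⟨1, one_pos, fun z hz => absurd hz (notMem_empty z)⟩⟩
  · rintro S T hST ⟨δ, hδ, h⟩
    refine ⟨δ, hδ, fun s hs => ?_⟩
    obtain ⟨s', hs', h'⟩ := h s hs
    exact ⟨s', hs', fun z hz => h' z (hST hz)⟩
  · rintro S T ⟨δ₁, hδ₁, h₁⟩ ⟨δ₂, hδ₂, h₂⟩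
    refine ⟨min δ₁ δ₂, lt_min hδ₁ hδ₂, fun s hs => ?_⟩
    obtain ⟨s₁, hs₁, h₁'⟩ := h₁ s hs
    obtain ⟨s₂, hs₂, h₂'⟩ := h₂ s hs
    refine ⟨min s₁ s₂, lt_min hs₁ hs₂, fun z hz m c hbc hc => ?_⟩
    rcases hz with hz | hz
    · exact h₁' z hz m c hbc (Sup.mono (fun l hl => ⟨hl.1, sm_mono (min_le_left _ _) hl.2.1,
        fun x hx => ⟨(hl.2.2 x hx).1, (hl.2.2 x hx).2.trans_le (min_le_left _ _)⟩⟩) hc)
    · exact h₂' z hz m c hbc (Sup.mono (fun l hl => ⟨hl.1, sm_mono (min_le_right _ _) hl.2.1,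
        fun x hx => ⟨(hl.2.2 x hx).1, (hl.2.2 x hx).2.trans_le (min_le_right _ _)⟩⟩) hc)
  · intro z₀ hz₀
    obtain ⟨hsub, -, -, hcl⟩ := hcell z₀ hz₀
    have hUo : IsOpen (O ∩ f ⁻¹' ball z₀ (ε / 2)) := hO.inter (isOpen_ball.preimage hf)
    obtain ⟨V, hVo, hFV, hVU, hnull⟩ := hcl (O ∩ f ⁻¹' ball z₀ (ε / 2)) hUo (by
      intro x hx
      refine ⟨hsub hx, ?_⟩
      have : f x = z₀ := hx.1
      rw [mem_preimage, this]
      exact mem_ball_self (by linarith))
    -- a uniform neighbourhood of the fibre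
    obtain ⟨δ₀, hδ₀, hδV⟩ : ∃ δ₀ > 0, ∀ x ∈ A, dist (f x) z₀ < 3 * δ₀ → x ∈ V := by
      have hcomp : IsCompact (A \ V) := hA.diff hVo
      rcases (A \ V).eq_empty_or_nonempty with hE | hne
      · refine ⟨1, one_pos, fun x hx _ => ?_⟩
        by_contra hxV
        have : x ∈ A \ V := ⟨hx, hxV⟩
        rw [hE] at this
        exact this
      · obtain ⟨x₁, hx₁, hmin⟩ := hcomp.exists_isMinOn hne
          ((hf.dist continuous_const).continuousOn (s := A \ V) (f := fun x => dist (f x) z₀))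
        have hpos : 0 < dist (f x₁) z₀ := by
          rw [dist_pos]
          intro h
          exact hx₁.2 (hFV ⟨h, hx₁.1⟩)
        refine ⟨dist (f x₁) z₀ / 3, by positivity, fun x hx hlt => ?_⟩
        by_contra hxV
        have := hmin (show x ∈ A \ V from ⟨hx, hxV⟩)
        simp only [mem_ofPred_eq] at this
        linarith
    set L : Set M := A ∩ f ⁻¹' closedBall z₀ (2 * δ₀) with hLdef
    have hLc : IsCompact L := hA.inter_right (isClosed_closedBall.preimage hf)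
    have hLV : L ⊆ V := fun x hx => hδV x hx.1 (by
      have : dist (f x) z₀ ≤ 2 * δ₀ := hx.2
      linarith)
    have hδ1 : 0 < min δ₀ (ε / 2) := lt_min hδ₀ (by linarith)
    refine ⟨ball z₀ (min δ₀ (ε / 2)), mem_nhdsWithin_of_mem_nhds (ball_mem_nhds z₀ hδ1),
      min δ₀ (ε / 2), hδ1, fun s hs => ?_⟩
    obtain ⟨s', hs', hfill⟩ := fill_local hVU hLc hLV hnull hs
    refine ⟨s', hs', fun z hz m c hbc hc => ?_⟩
    have hz' : dist z z₀ < min δ₀ (ε / 2) := hz
    have hza : dist z z₀ < δ₀ := hz'.trans_le (min_le_left _ _)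
    have hzb : dist z z₀ < ε / 2 := hz'.trans_le (min_le_right _ _)
    obtain ⟨e, he, hes⟩ := hfill m c hbc (Sup.mono (fun l hl => ⟨hl.1, hl.2.1, fun x hx => by
      obtain ⟨h1, h2⟩ := hl.2.2 x hx
      refine ⟨h1, ?_⟩
      rw [mem_preimage, mem_closedBall]
      have h3 := h2.trans_le (min_le_left _ _)
      have := dist_triangle (f x) z z₀
      linarith⟩) hc)
    refine ⟨e, he, Sup.mono (fun l hl => ⟨hl.1, hl.2.1, fun x hx => ?_⟩) hes⟩
    obtain ⟨h1, h2⟩ := hl.2.2 x hx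
    refine ⟨hOA h1, ?_⟩
    rw [mem_preimage, mem_ball] at h2
    have := dist_triangle (f x) z₀ z
    rw [dist_comm z₀ z] at this
    linarith

end Fill

end Vale.Agent.P260
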