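import Vale.Agent.P260.Viet

/-!
# P260: fibres of degree one maps are not the union of two pieces
-/

set_option autoImplicit false
set_option linter.all false

namespace Vale.Agent.P260

open Metric Set Topology
open Vale.Agent.P239.M

section Main

variable {M N : Type*} [MetricSpace M] [MetricSpace N] {n : ℕ}

/-- The situation near a fibre: `O ⊆ B`, `O' ⊆ B'` open, `B`, `B'` disjoint, points outside
`O ∪ O'` are mapped far from `y₀`. -/
structure Side (f : M → N) (y₀ : N) (O B O' B' : Set M) (r ρ : ℝ) : Prop where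
  oO : IsOpen O
  oB : IsOpen B
  oO' : IsOpen O'
  oB' : IsOpen B'
  sub : ∀ x ∈ O, ∀ w, dist x w < r → w ∈ B
  sub' : ∀ x ∈ O', ∀ w, dist x w < r → w ∈ B'
  disj : Disjoint B B'
  far : ∀ x, x ∉ O → x ∉ O' → ρ ≤ dist (f x) y₀
  hr : 0 < r
  hρ : 0 < ρ

theorem Side.symm {f : M → N} {y₀ : N} {O B O' B' : Set M} {r ρ : ℝ}
    (S : Side f y₀ O B O' B' r ρ) : Side f y₀ O' B' O B r ρ :=
  ⟨S.oO', S.oB', S.oO, S.oB, S.sub', S.sub, S.disj.symm, fun x h1 h2 => S.far x h2 h1, S.hr, S.hρ⟩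

theorem Side.OB {f : M → N} {y₀ : N} {O B O' B' : Set M} {r ρ : ℝ}
    (S : Side f y₀ O B O' B' r ρ) : O ⊆ B := fun x hx =>
  S.sub x hx x (by rw [dist_self]; exact S.hr)

theorem exists_side [CompactSpace M] {f : M → N} (hf : Continuous f) {y₀ : N} {F₁ F₂ : Set M}
    (h1 : IsCompact F₁) (h2 : IsCompact F₂) (hd : Disjoint F₁ F₂) (hF : f ⁻¹' {y₀} = F₁ ∪ F₂) :
    ∃ O B O' B' r ρ, Side f y₀ O B O' B' r ρ ∧ F₁ ⊆ O ∧ F₂ ⊆ O' := by
  obtain ⟨r, hr, hdis⟩ := hd.exists_thickenings h1 h2.isClosed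
  have hr2 : 0 < r / 2 := by linarith
  have hsub : ∀ F : Set M, ∀ x ∈ thickening (r / 2) F, ∀ w, dist x w < r / 2 →
      w ∈ thickening r F := by
    intro F x hx w hw
    obtain ⟨z, hz, hxz⟩ := mem_thickening_iff.1 hx
    refine mem_thickening_iff.2 ⟨z, hz, ?_⟩
    have := dist_triangle w x z
    rw [dist_comm w x] at this
    linarith
  have hs1 : F₁ ⊆ thickening (r / 2) F₁ := self_subset_thickening hr2 _
  have hs2 : F₂ ⊆ thickening (r / 2) F₂ := self_subset_thickening hr2 _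
  obtain ⟨ρ, hρ, hfar⟩ : ∃ ρ > 0, ∀ x, x ∉ thickening (r / 2) F₁ → x ∉ thickening (r / 2) F₂ →
      ρ ≤ dist (f x) y₀ := by
    set C : Set M := (thickening (r / 2) F₁ ∪ thickening (r / 2) F₂)ᶜ with hC
    have hcomp : IsCompact C := (isOpen_thickening.union isOpen_thickening).isClosed_compl.isCompact
    rcases C.eq_empty_or_nonempty with hE | hne
    · refine ⟨1, one_pos, fun x hx hx' => ?_⟩
      exfalso
      have : x ∈ C := fun h => h.elim hx hx'
      rw [hE] at this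
      exact this
    · obtain ⟨x₁, hx₁, hmin⟩ := hcomp.exists_isMinOn hne
        ((hf.dist continuous_const).continuousOn (s := C) (f := fun x => dist (f x) y₀))
      refine ⟨dist (f x₁) y₀, ?_, fun x hx hx' => hmin (show x ∈ C from fun h => h.elim hx hx')⟩
      rw [gt_iff_lt, dist_pos]
      intro h
      have h3 : x₁ ∈ f ⁻¹' {y₀} := h
      rw [hF] at h3
      exact hx₁ (h3.imp (fun h => hs1 h) (fun h => hs2 h))
  exact ⟨thickening (r / 2) F₁, thickening r F₁, thickening (r / 2) F₂, thickening r F₂, r / 2, ρ,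
    ⟨isOpen_thickening, isOpen_thickening, isOpen_thickening, isOpen_thickening, hsub F₁, hsub F₂,
      hdis, hfar, hr2, hρ⟩, hs1, hs2⟩

open Classical in
/-- the degree on one side -/
noncomputable def Dg (f : M → N) (β : (Fin n → ℝ) → N) (y₀ : N) (B : Set M)
    (c : Ch (ZMod 2) M) : ZMod 2 := dg β (pf f (c.filter (In B))) y₀

open Classical in
theorem side_bd {f : M → N} {y₀ : N} {O B O' B' : Set M} {r ρ : ℝ}
    (S : Side f y₀ O B O' B' r ρ) {κ : ℝ} (hκ : κ ≤ r) {c : Ch (ZMod 2) M} (hc : Cyc n κ c) :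
    Sup (fun l => ∀ x ∈ l, ρ ≤ dist (f x) y₀) (bd (c.filter (In B))) := by
  intro l hl x hx
  by_contra hlt
  have hB : Sup (fun l => In B l) (bd (c.filter (In B))) :=
    Sup.bd (P := fun l => In B l) (fun l l' hs _ h x hx => h x (hs.subset hx)) (by
      intro l hl
      rw [Finsupp.support_filter, Finset.mem_filter] at hl
      exact hl.2)
  have h1 : x ∈ O ∨ x ∈ O' := by
    by_contra h
    push Not at h
    exact hlt (S.far x h.1 h.2)
  rcases h1 with h1 | h1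
  · have h2 := mem_bd_filter hl hx fun l' hl' hxl' w hw =>
      S.sub x h1 w (((hc.2 l' hl').2 x hxl' w hw).trans_le hκ)
    rw [hc.1] at h2
    simp at h2
  · exact disjoint_left.1 S.disj (hB l hl x hx) (S.symm.OB h1)

/-- additivity of the degree -/
theorem side_add {f : M → N} (hf : UniformContinuous f) {y₀ : N} {O B O' B' : Set M} {r ρ : ℝ}
    (S : Side f y₀ O B O' B' r ρ) (hn : 0 < n) {β : (Fin n → ℝ) → N} (hβ : IsOpenEmbedding β)
    (hy₀ : y₀ ∈ β '' Q n 2) : ∃ κ > 0, ∀ c : Ch (ZMod 2) M, Cyc n κ c →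
      dg β (pf f c) y₀ = Dg f β y₀ B c + Dg f β y₀ B' c := by
  classical
  obtain ⟨kf, hkf, hfar⟩ := dg_far hβ S.hρ
  obtain ⟨δ, hδ, hu⟩ := Metric.uniformContinuous_iff.1 hf kf hkf
  refine ⟨min δ r, lt_min hδ S.hr, fun c hc => ?_⟩
  have hne : ∀ l ∈ c.support, l ≠ [] := by
    intro l hl h
    have := (hc.2 l hl).1
    rw [h] at this
    simp at this
  have e1 : c.filter (In B) + c.filter (fun l => ¬ In B l) = c :=
    Finsupp.filter_add_filter_not c (In B)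
  set c2 : Ch (ZMod 2) M := c.filter (fun l => ¬ In B l) with hc2def
  have e2 : c2.filter (In B') + c2.filter (fun l => ¬ In B' l) = c2 :=
    Finsupp.filter_add_filter_not c2 (In B')
  have e3 : c2.filter (In B') = c.filter (In B') := by
    ext l
    rw [hc2def, Finsupp.filter_apply, Finsupp.filter_apply, Finsupp.filter_apply]
    by_cases hl : l ∈ c.support
    · by_cases h' : In B' l
      · have hB : ¬ In B l := by
          intro hB
          obtain ⟨x, hx⟩ := List.exists_mem_of_ne_nil l (hne l hl)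
          exact disjoint_left.1 S.disj (hB x hx) (h' x hx)
        rw [if_pos h', if_pos hB, if_pos h']
      · rw [if_neg h', if_neg h']
    · rw [Finsupp.notMem_support_iff.1 hl]
      simp
  have h3 : dg β (pf f (c2.filter (fun l => ¬ In B' l))) y₀ = 0 := by
    refine (hfar _ y₀ (Q_sub (by norm_num) hy₀) (Sup.pf f ?_)).1
    intro l hl
    rw [Finsupp.support_filter, Finset.mem_filter, hc2def, Finsupp.support_filter,
      Finset.mem_filter] at hl
    obtain ⟨⟨h1, h2⟩, h3⟩ := hl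
    refine ⟨?_, ?_⟩
    · intro a ha b hb
      obtain ⟨x, hx, rfl⟩ := List.mem_map.1 ha
      obtain ⟨y, hy, rfl⟩ := List.mem_map.1 hb
      exact hu (((hc.2 l h1).2 x hx y hy).trans_le (min_le_left _ _))
    · obtain ⟨x, hx⟩ := List.exists_mem_of_ne_nil l (hne l h1)
      refine ⟨f x, List.mem_map_of_mem hx, ?_⟩
      rw [dist_comm]
      refine S.far x (fun hO => h2 fun w hw => ?_) (fun hO => h3 fun w hw => ?_)
      · exact S.sub x hO w (((hc.2 l h1).2 x hx w hw).trans_le (min_le_right _ _))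
      · exact S.sub' x hO w (((hc.2 l h1).2 x hx w hw).trans_le (min_le_right _ _))
  unfold Dg
  conv_lhs => rw [← e1, ← e2, e3]
  rw [map_add, map_add, inv_dg_add, inv_dg_add, h3, add_zero]

/-- a side of degree one is onto a neighbourhood -/
theorem side_onto [CompactSpace M] {f : M → N} (hf : Continuous f) {y₀ : N} {O B O' B' : Set M}
    {r ρ : ℝ} (S : Side f y₀ O B O' B' r ρ) (hn : 0 < n) {β : (Fin n → ℝ) → N}
    (hβ : IsOpenEmbedding β) (hy₀ : y₀ ∈ β '' Q n 2)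
    (h : ∀ δ > 0, ∃ c : Ch (ZMod 2) M, Cyc n δ c ∧ Dg f β y₀ B c = 1) :
    ∃ r₁ > 0, ∀ y, dist y y₀ < r₁ → ∃ x ∈ O, f x = y := by
  classical
  have hfu : UniformContinuous f := CompactSpace.uniformContinuous_of_continuous hf
  obtain ⟨r₁, hr₁, κ₁, hκ₁, hnear⟩ := dg_near hn hβ hy₀ S.hρ
  obtain ⟨r₂, hr₂, -, hball⟩ := ball_chart hβ hy₀ one_pos
  refine ⟨min r₁ (min r₂ ρ), lt_min hr₁ (lt_min hr₂ S.hρ), fun y hy => ?_⟩
  have hy1 : dist y y₀ < r₁ := hy.trans_le (min_le_left _ _)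
  have hy2 : dist y y₀ < r₂ := hy.trans_le ((min_le_right _ _).trans (min_le_left _ _))
  have hy3 : dist y y₀ < ρ := hy.trans_le ((min_le_right _ _).trans (min_le_right _ _))
  have hyQ : y ∈ β '' Q n 7 := Q_sub (by norm_num) (hball (mem_ball.2 hy2))
  have hcl : y ∈ closure (f '' B) := by
    rw [Metric.mem_closure_iff]
    intro η hη
    obtain ⟨κ₂, hκ₂, hfar⟩ := dg_far hβ hη
    obtain ⟨δ, hδ, hu⟩ := Metric.uniformContinuous_iff.1 hfu (min κ₁ κ₂) (lt_min hκ₁ hκ₂)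
    obtain ⟨c, hc, hD⟩ := h (min δ r) (lt_min hδ S.hr)
    have hsm : ∀ l ∈ c.support, Sm (min κ₁ κ₂) (l.map f) := by
      intro l hl a ha b hb
      obtain ⟨x, hx, rfl⟩ := List.mem_map.1 ha
      obtain ⟨y, hy, rfl⟩ := List.mem_map.1 hb
      exact hu (((hc.2 l hl).2 x hx y hy).trans_le (min_le_left _ _))
    have hsupp : ∀ l ∈ (c.filter (In B)).support, l ∈ c.support ∧ In B l := by
      intro l hl
      rwa [Finsupp.support_filter, Finset.mem_filter] at hl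
    have hDy : dg β (pf f (c.filter (In B))) y = 1 := by
      rw [hnear (pf f (c.filter (In B))) (Sup.pf f fun l hl => ⟨by
        rw [List.length_map]; exact (hc.2 l (hsupp l hl).1).1,
        sm_mono (min_le_left _ _) (hsm l (hsupp l hl).1)⟩) ?_ y hy1]
      · exact hD
      · rw [bd_pf]
        refine Sup.pf f ((side_bd S (min_le_right _ _) hc).mono fun l hl a ha => ?_)
        obtain ⟨x, hx, rfl⟩ := List.mem_map.1 ha
        exact hl x hx
    by_contra hcon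
    push Not at hcon
    have h0 := (hfar (pf f (c.filter (In B))) y hyQ (Sup.pf f fun l hl => ⟨
      sm_mono (min_le_right _ _) (hsm l (hsupp l hl).1), ?_⟩)).1
    · rw [hDy] at h0
      exact one_ne_zero h0
    · have hne : l ≠ [] := by
        intro h
        have := (hc.2 l (hsupp l hl).1).1
        rw [h] at this
        simp at this
      obtain ⟨x, hx⟩ := List.exists_mem_of_ne_nil l hne
      exact ⟨f x, List.mem_map_of_mem hx, hcon (f x) (mem_image_of_mem f ((hsupp l hl).2 x hx))⟩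
  have himg : closure (f '' B) ⊆ f '' closure B := by
    refine closure_minimal (image_mono subset_closure) ?_
    exact (isClosed_closure.isCompact.image hf).isClosed
  obtain ⟨x, hx, hxy⟩ := himg hcl
  refine ⟨x, ?_, hxy⟩
  by_contra hO
  have hO' : x ∈ O' := by
    by_contra hO'
    have := S.far x hO hO'
    rw [hxy] at this
    linarith
  have hdis : Disjoint (closure B) B' := S.disj.closure_left S.oB'
  exact disjoint_left.1 hdis hx (S.symm.OB hO')

/-- one side onto: the other side has degree one -/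
theorem side_half [CompactSpace M] {f : M → N} (hf : Continuous f) {y₀ : N} {O B O' B' : Set M}
    {r ρ : ℝ} (S : Side f y₀ O B O' B' r ρ) (hn : 0 < n) {β : (Fin n → ℝ) → N}
    (hβ : IsOpenEmbedding β) (hy₀ : y₀ ∈ β '' Q n 2) {R : ℝ} (hR : 0 < R)
    (hcell : ∀ y, dist y y₀ < R → ∃ G₁ G₂ : Set M, CellLike G₁ ∧ CellLike G₂ ∧
      f ⁻¹' {y} = G₁ ∪ G₂) {γ : (Fin n → ℝ) → M} (hγ : IsOpenEmbedding γ) {x₀ : M}
    (hx₀ : x₀ ∈ γ '' Q n 2) (hfx : f x₀ = y₀) (hxO : x₀ ∈ O')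
    (h : ∀ δ > 0, ∃ c : Ch (ZMod 2) M, Cyc n δ c ∧ Dg f β y₀ B c = 1) :
    ∃ κ > 0, ∀ c : Ch (ZMod 2) M, Cyc n κ c → dg γ c x₀ = 1 → Dg f β y₀ B' c = 1 := by
  classical
  obtain ⟨r₁, hr₁, honto⟩ := side_onto hf S hn hβ hy₀ h
  have hm : 0 < min r₁ (min ρ R) := lt_min hr₁ (lt_min S.hρ hR)
  set R' : ℝ := min r₁ (min ρ R) / 2 with hR'
  have hR'0 : 0 < R' := by rw [hR']; linarith
  have hR'1 : R' < r₁ := by have := min_le_left r₁ (min ρ R); rw [hR']; linarith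
  have hR'2 : R' < ρ := by
    have := (min_le_right r₁ (min ρ R)).trans (min_le_left _ _); rw [hR']; linarith
  have hR'3 : R' < R := by
    have := (min_le_right r₁ (min ρ R)).trans (min_le_right _ _); rw [hR']; linarith
  have hdO : Disjoint O O' := S.disj.mono S.OB S.symm.OB
  have hO'A : O' ⊆ Bᶜ := fun x hx hB => disjoint_left.1 S.disj hB (S.symm.OB hx)
  have hAc : IsCompact Bᶜ := S.oB.isClosed_compl.isCompact
  have hKc : IsCompact (f '' Bᶜ ∩ closedBall y₀ R') :=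
    (hAc.image hf).inter_right isClosed_closedBall
  have hF : UFill f Bᶜ (f '' Bᶜ ∩ closedBall y₀ R') := by
    refine unif_fill hf hAc S.oO' hO'A hKc fun y hy => ?_
    obtain ⟨⟨x', hx'B, hx'y⟩, hyR⟩ := hy
    rw [mem_closedBall] at hyR
    have hfib : f ⁻¹' {y} ⊆ O ∪ O' := by
      intro x hx
      by_contra hcon
      rw [mem_union, not_or] at hcon
      have h1 := S.far x hcon.1 hcon.2
      have h2 : f x = y := hx
      rw [h2] at h1
      linarith
    have hsub : f ⁻¹' {y} ∩ Bᶜ ⊆ O' := by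
      intro x hx
      exact (hfib hx.1).resolve_left fun hO => hx.2 (S.OB hO)
    refine ⟨hsub, ?_⟩
    obtain ⟨x, hxO, hxy⟩ := honto y (by linarith)
    obtain ⟨G₁, G₂, hG₁, hG₂, hG⟩ := hcell y (by linarith)
    -- a piece meeting one side is contained in it
    have hpiece : ∀ G : Set M, CellLike G → G ⊆ f ⁻¹' {y} → (G ∩ O).Nonempty → G ⊆ O := by
      intro G hG hGf hne
      exact hG.2.1.isPreconnected.subset_left_of_subset_union S.oO S.oO' hdO (hGf.trans hfib) hne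
    have hpiece' : ∀ G : Set M, CellLike G → G ⊆ f ⁻¹' {y} → (G ∩ O').Nonempty → G ⊆ O' := by
      intro G hG hGf hne
      exact hG.2.1.isPreconnected.subset_right_of_subset_union S.oO S.oO' hdO (hGf.trans hfib) hne
    have key : ∀ G₁ G₂ : Set M, CellLike G₁ → CellLike G₂ → f ⁻¹' {y} = G₁ ∪ G₂ → x ∈ G₁ →
        CellLike (f ⁻¹' {y} ∩ Bᶜ) := by
      intro G₁ G₂ h1 h2 h12 hx1
      have s1 : G₁ ⊆ f ⁻¹' {y} := by rw [h12]; exact subset_union_left
      have s2 : G₂ ⊆ f ⁻¹' {y} := by rw [h12]; exact subset_union_right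
      have hG1O : G₁ ⊆ O := hpiece G₁ h1 s1 ⟨x, hx1, hxO⟩
      have hx'O : x' ∈ O' := hsub ⟨hx'y, hx'B⟩
      have hx'2 : x' ∈ G₂ := by
        have : x' ∈ G₁ ∪ G₂ := by rw [← h12]; exact hx'y
        exact this.resolve_left fun h => disjoint_left.1 hdO (hG1O h) hx'O
      have hG2O : G₂ ⊆ O' := hpiece' G₂ h2 s2 ⟨x', hx'2, hx'O⟩
      have : f ⁻¹' {y} ∩ Bᶜ = G₂ := by
        rw [h12]
        ext w
        constructor
        · rintro ⟨hw | hw, hwB⟩
          · exact absurd (S.OB (hG1O hw)) hwB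
          · exact hw
        · intro hw
          exact ⟨Or.inr hw, hO'A (hG2O hw)⟩
      rw [this]
      exact h2
    have hxG : x ∈ G₁ ∪ G₂ := by rw [← hG]; exact hxy
    rcases hxG with hx1 | hx2
    · exact key G₁ G₂ hG₁ hG₂ hG hx1
    · exact key G₂ G₁ hG₂ hG₁ (by rw [hG, union_comm]) hx2
  obtain ⟨κ₁, hκ₁, hV⟩ := vietoris hn hf hβ hy₀ hR'0 hF hγ hx₀ hfx S.hρ
  obtain ⟨κ₂, hκ₂, hfar⟩ := dg_far hγ S.hr
  refine ⟨min κ₁ (min κ₂ r), lt_min hκ₁ (lt_min hκ₂ S.hr), fun c hc hd => ?_⟩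
  have hsupp : ∀ l ∈ (c.filter (In B')).support, l ∈ c.support ∧ In B' l := by
    intro l hl
    rwa [Finsupp.support_filter, Finset.mem_filter] at hl
  by_contra hne
  have h0 : Dg f β y₀ B' c = 0 := by
    rcases (show ∀ z : ZMod 2, z = 0 ∨ z = 1 by decide) (Dg f β y₀ B' c) with h | h
    · exact h
    · exact absurd h hne
  have h1 := hV (c.filter (In B')) (fun l hl => ⟨(hc.2 l (hsupp l hl).1).1,
    sm_mono (min_le_left _ _) (hc.2 l (hsupp l hl).1).2, fun x hx hB =>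
      disjoint_left.1 S.disj hB ((hsupp l hl).2 x hx)⟩)
    (side_bd S.symm ((min_le_right _ _).trans (min_le_right _ _)) hc) h0
  have h2 : dg γ (c.filter (fun l => ¬ In B' l)) x₀ = 0 := by
    refine (hfar _ x₀ (Q_sub (by norm_num) hx₀) fun l hl => ?_).1
    rw [Finsupp.support_filter, Finset.mem_filter] at hl
    refine ⟨sm_mono ((min_le_right _ _).trans (min_le_left _ _)) (hc.2 l hl.1).2, ?_⟩
    have h3 := hl.2
    unfold In at h3
    push Not at h3
    obtain ⟨w, hw, hwB⟩ := h3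
    refine ⟨w, hw, ?_⟩
    by_contra hlt
    exact hwB (S.sub' x₀ hxO w (not_le.1 hlt))
  have h3 : dg γ c x₀ = 0 := by
    rw [← Finsupp.filter_add_filter_not c (In B'), inv_dg_add, h1, h2, add_zero]
  rw [hd] at h3
  exact one_ne_zero h3

/-- small cycles of total degree one -/
theorem exists_tot [CompactSpace N] (hn : 0 < n)
    (hchN : ∀ x : N, ∃ β : (Fin n → ℝ) → N, IsOpenEmbedding β ∧ β 0 = x)
    {f : M → N} (hf : Continuous f) {g : N → M} (hg : Continuous g) (H : ℝ → N → N)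
    (hH : Continuous (fun p : ℝ × N => H p.1 p.2)) (h0 : H 0 = f ∘ g) (h1 : H 1 = id)
    {β : (Fin n → ℝ) → N} (hβ : IsOpenEmbedding β) {y₀ : N} (hy₀ : y₀ ∈ β '' Q n 2) :
    ∀ δ > 0, ∃ c : Ch (ZMod 2) M, Cyc n δ c ∧ dg β (pf f c) y₀ = 1 := by
  have hgu : UniformContinuous g := CompactSpace.uniformContinuous_of_continuous hg
  have hyQ : y₀ ∈ β '' Q n 7 := Q_sub (by norm_num) hy₀
  intro δ hδ
  obtain ⟨δ₁, hδ₁, hu⟩ := Metric.uniformContinuous_iff.1 hgu δ hδ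
  obtain ⟨δ₂, hδ₂, hh⟩ := dg_htpy H hH.continuousOn hβ hyQ
  obtain ⟨μ, hμ, hdμ⟩ := exists_fund hn hchN hβ hy₀ (min δ₁ δ₂) (lt_min hδ₁ hδ₂)
  refine ⟨pf g μ, ⟨by rw [bd_pf, hμ.1, map_zero], Sup.pf g fun l hl => ⟨by
    rw [List.length_map]; exact (hμ.2 l hl).1, ?_⟩⟩, ?_⟩
  · intro a ha b hb
    obtain ⟨x, hx, rfl⟩ := List.mem_map.1 ha
    obtain ⟨y, hy, rfl⟩ := List.mem_map.1 hb
    exact hu (((hμ.2 l hl).2 x hx y hy).trans_le (min_le_left _ _))
  · have e1 : pf f (pf g μ) = pf (H 0) μ := by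
      rw [h0, SupA.eq_ext' (pf (f ∘ g)) μ]
      simp only [pf_single, List.map_comp_map, ← List.map_map]
      rw [SupA.eq_ext' (pf g) μ, SupA.map_ext]
      simp only [pf_single]
    have e2 : pf (H 1) μ = μ := by rw [h1]; exact pf_eq_self fun l _ x _ => rfl
    rw [e1, ← hh μ (hμ.mono (min_le_right _ _)), e2]
    exact hdμ

/-- **No fibre of a degree one map is the disjoint union of two pieces.** -/
theorem no_two [CompactSpace M] [PreconnectedSpace M] [CompactSpace N] (hn : 0 < n)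
    (hchM : ∀ x : M, ∃ β : (Fin n → ℝ) → M, IsOpenEmbedding β ∧ β 0 = x)
    (hchN : ∀ x : N, ∃ β : (Fin n → ℝ) → N, IsOpenEmbedding β ∧ β 0 = x)
    {f : M → N} (hf : Continuous f) {g : N → M} (hg : Continuous g) (H : ℝ → N → N)
    (hH : Continuous (fun p : ℝ × N => H p.1 p.2)) (h0 : H 0 = f ∘ g) (h1 : H 1 = id)
    {y₀ : N} {R : ℝ} (hR : 0 < R) (hcell : ∀ y, dist y y₀ < R → ∃ G₁ G₂ : Set M, CellLike G₁ ∧
      CellLike G₂ ∧ f ⁻¹' {y} = G₁ ∪ G₂) {F₁ F₂ : Set M} (hF1 : IsCompact F₁)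
    (hF2 : IsCompact F₂) (hne1 : F₁.Nonempty) (hne2 : F₂.Nonempty) (hd : Disjoint F₁ F₂)
    (hF : f ⁻¹' {y₀} = F₁ ∪ F₂) : False := by
  classical
  obtain ⟨O, B, O', B', r, ρ, S, hFO, hFO'⟩ := exists_side hf hF1 hF2 hd hF
  have hfu : UniformContinuous f := CompactSpace.uniformContinuous_of_continuous hf
  obtain ⟨β, hβ, hβ0⟩ := hchN y₀
  have hy₀ : y₀ ∈ β '' Q n 2 := ⟨0, mem_closedBall_self (by norm_num), hβ0⟩
  obtain ⟨x₁, hx₁⟩ := hne1
  obtain ⟨x₂, hx₂⟩ := hne2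
  have hf1 : f x₁ = y₀ := by
    have : x₁ ∈ f ⁻¹' {y₀} := by rw [hF]; exact Or.inl hx₁
    exact this
  have hf2 : f x₂ = y₀ := by
    have : x₂ ∈ f ⁻¹' {y₀} := by rw [hF]; exact Or.inr hx₂
    exact this
  obtain ⟨γ₁, hγ₁, hγ₁0⟩ := hchM x₁
  obtain ⟨γ₂, hγ₂, hγ₂0⟩ := hchM x₂
  have hQ1 : x₁ ∈ γ₁ '' Q n 2 := ⟨0, mem_closedBall_self (by norm_num), hγ₁0⟩
  have hQ2 : x₂ ∈ γ₂ '' Q n 2 := ⟨0, mem_closedBall_self (by norm_num), hγ₂0⟩
  have hyQ : y₀ ∈ β '' Q n 7 := Q_sub (by norm_num) hy₀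
  have htot := exists_tot hn hchN hf hg H hH h0 h1 hβ hy₀
  obtain ⟨κa, hκa, hadd⟩ := side_add hfu S hn hβ hy₀
  have hpig : (∀ δ > 0, ∃ c : Ch (ZMod 2) M, Cyc n δ c ∧ Dg f β y₀ B c = 1) ∨
      (∀ δ > 0, ∃ c : Ch (ZMod 2) M, Cyc n δ c ∧ Dg f β y₀ B' c = 1) := by
    by_contra hcon
    push Not at hcon
    obtain ⟨⟨δ₁, hδ₁, h1⟩, δ₂, hδ₂, h2⟩ := hcon
    obtain ⟨c, hc, hdc⟩ := htot (min κa (min δ₁ δ₂)) (lt_min hκa (lt_min hδ₁ hδ₂))
    have e1 := h1 c (hc.mono ((min_le_right _ _).trans (min_le_left _ _)))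
    have e2 := h2 c (hc.mono ((min_le_right _ _).trans (min_le_right _ _)))
    have e3 := hadd c (hc.mono (min_le_left _ _))
    rw [hdc] at e3
    have key : ∀ a b : ZMod 2, a ≠ 1 → b ≠ 1 → 1 = a + b → False := by decide
    exact key _ _ e1 e2 e3
  -- both sides have degree one
  have hboth : (∃ κ > 0, ∀ c : Ch (ZMod 2) M, Cyc n κ c → dg γ₂ c x₂ = 1 → Dg f β y₀ B' c = 1) ∧
      (∃ κ > 0, ∀ c : Ch (ZMod 2) M, Cyc n κ c → dg γ₁ c x₁ = 1 → Dg f β y₀ B c = 1) := by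
    rcases hpig with h | h
    · have h2 := side_half hf S hn hβ hy₀ hR hcell hγ₂ hQ2 hf2 (hFO' hx₂) h
      refine ⟨h2, side_half hf S.symm hn hβ hy₀ hR hcell hγ₁ hQ1 hf1 (hFO hx₁) ?_⟩
      obtain ⟨κ, hκ, h2⟩ := h2
      intro δ hδ
      obtain ⟨c, hc, hdc⟩ := exists_fund hn hchM hγ₂ hQ2 (min δ κ) (lt_min hδ hκ)
      exact ⟨c, hc.mono (min_le_left _ _), h2 c (hc.mono (min_le_right _ _)) hdc⟩
    · have h2 := side_half hf S.symm hn hβ hy₀ hR hcell hγ₁ hQ1 hf1 (hFO hx₁) h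
      refine ⟨side_half hf S hn hβ hy₀ hR hcell hγ₂ hQ2 hf2 (hFO' hx₂) ?_, h2⟩
      obtain ⟨κ, hκ, h2⟩ := h2
      intro δ hδ
      obtain ⟨c, hc, hdc⟩ := exists_fund hn hchM hγ₁ hQ1 (min δ κ) (lt_min hδ hκ)
      exact ⟨c, hc.mono (min_le_left _ _), h2 c (hc.mono (min_le_right _ _)) hdc⟩
  obtain ⟨⟨κ₂, hκ₂, hs2⟩, κ₁, hκ₁, hs1⟩ := hboth
  obtain ⟨κc, hκc, hconn⟩ := dg_conn hn hchM hγ₁ hγ₂ hQ1 hQ2
  obtain ⟨kb, hkb, hbdβ⟩ := dg_bd hβ
  obtain ⟨δf, hδf, huf⟩ := Metric.uniformContinuous_iff.1 hfu kb hkb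
  obtain ⟨κu, hκu, huniq⟩ := uniq hn hchM hγ₂ hQ2 δf hδf
  obtain ⟨c, hc, hdc⟩ := htot (min (min κa (min κ₁ κ₂)) (min κc κu))
    (lt_min (lt_min hκa (lt_min hκ₁ hκ₂)) (lt_min hκc hκu))
  have m1 : min (min κa (min κ₁ κ₂)) (min κc κu) ≤ κa := (min_le_left _ _).trans (min_le_left _ _)
  have m2 : min (min κa (min κ₁ κ₂)) (min κc κu) ≤ κ₁ :=
    (min_le_left _ _).trans ((min_le_right _ _).trans (min_le_left _ _))
  have m3 : min (min κa (min κ₁ κ₂)) (min κc κu) ≤ κ₂ :=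
    (min_le_left _ _).trans ((min_le_right _ _).trans (min_le_right _ _))
  have m4 : min (min κa (min κ₁ κ₂)) (min κc κu) ≤ κc := (min_le_right _ _).trans (min_le_left _ _)
  have m5 : min (min κa (min κ₁ κ₂)) (min κc κu) ≤ κu := (min_le_right _ _).trans (min_le_right _ _)
  rcases (show ∀ z : ZMod 2, z = 0 ∨ z = 1 by decide) (dg γ₂ c x₂) with h | h
  · obtain ⟨e, he, hce⟩ := huniq c (hc.mono m5) h
    have h3 := (hbdβ (pf f e) (Sup.pf f (he.mono fun l hl a ha b hb => ?_)) y₀ hyQ).1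
    · rw [bd_pf, ← hce, hdc] at h3
      exact one_ne_zero h3
    · obtain ⟨x, hx, rfl⟩ := List.mem_map.1 ha
      obtain ⟨y, hy, rfl⟩ := List.mem_map.1 hb
      exact huf (hl x hx y hy)
  · have e1 := hs2 c (hc.mono m3) h
    have e2 := hs1 c (hc.mono m2) (by rw [hconn c (hc.mono m4)]; exact h)
    have e3 := hadd c (hc.mono m1)
    rw [hdc, e1, e2] at e3
    revert e3
    decide

end Main

end Vale.Agent.P260
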