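import Vale.Agent.P260.Fill

/-!
# P260: lifting small chains through a map with cell-like fibres
-/

set_option autoImplicit false
set_option linter.all false

namespace Vale.Agent.P260

open Metric Set Topology
open Vale.Agent.P239.M

section Psi

variable {M N : Type*} [MetricSpace M] [MetricSpace N]

/-- the map on mixed points -/
def qm (f : M → N) : M ⊕ N → N := Sum.elim f id

/-- admissible mixed lists -/
def Gm (f : M → N) (A : Set M) (K : Set N) (κ : ℝ) (l : List (M ⊕ N)) : Prop :=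
  (∀ y ∈ l, (∀ x, y = Sum.inl x → x ∈ A) ∧ qm f y ∈ K) ∧ Sm κ (l.map (qm f))

theorem Gm.sub {f : M → N} {A : Set M} {K : Set N} {κ : ℝ} {l l' : List (M ⊕ N)}
    (h : l'.Sublist l) (hl : Gm f A K κ l) : Gm f A K κ l' :=
  ⟨fun y hy => hl.1 y (h.subset hy), fun x hx y hy =>
    hl.2 x ((h.map _).subset hx) y ((h.map _).subset hy)⟩

theorem Gm.mono {f : M → N} {A : Set M} {K : Set N} {κ κ' : ℝ} {l : List (M ⊕ N)}
    (h : κ ≤ κ') (hl : Gm f A K κ l) : Gm f A K κ' l :=
  ⟨hl.1, sm_mono h hl.2⟩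

theorem exists_psi {f : M → N} {A : Set M} {K : Set N} (hF : UFill f A K) (i : ℕ) :
    ∀ ε > 0, ∃ κ > 0, ∀ s > 0, ∃ s₀ > 0, ∃ Ψ : List (M ⊕ N) → Ch (ZMod 2) M,
      ∀ l, Gm f A K κ l → l.length ≤ i →
        (∀ l₀ : List M, l = l₀.map Sum.inl → Sm s₀ l₀ → Ψ l = Finsupp.single l₀ 1) ∧
        bd (Ψ l) = ext Ψ (bdL (ZMod 2) l) ∧
        Sup (fun m => m.length = l.length ∧ Sm s m ∧ ∀ z ∈ l, In (Pn f A ε (qm f z)) m) (Ψ l) := by
  classical
  induction i with
  | zero =>
    intro ε hε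
    refine ⟨1, one_pos, fun s hs => ⟨1, one_pos, fun _ => Finsupp.single [] 1, fun l _ hl => ?_⟩⟩
    have hl' : l = [] := List.length_eq_zero_iff.1 (Nat.le_zero.1 hl)
    subst hl'
    refine ⟨?_, ?_, ?_⟩
    · intro l₀ h _
      have : l₀ = [] := List.map_eq_nil_iff.1 h.symm
      rw [this]
    · rw [bd_single]
      simp [bdL]
    · exact Sup.single 1 ⟨rfl, fun x hx => by simp at hx, fun x hx => by simp at hx⟩
  | succ i ih =>
    intro ε hε
    obtain ⟨δ, hδ, hfill⟩ := hF (ε / 2) (half_pos hε)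
    obtain ⟨κ₁, hκ₁, ih'⟩ := ih (min (δ / 2) ε) (lt_min (half_pos hδ) hε)
    refine ⟨min κ₁ (min (δ / 2) (ε / 2)), lt_min hκ₁ (lt_min (half_pos hδ) (half_pos hε)),
      fun s hs => ?_⟩
    obtain ⟨s', hs', hfill'⟩ := hfill s hs
    obtain ⟨s₀, hs₀, Ψ, hΨ⟩ := ih' (min s s') (lt_min hs hs')
    set κ : ℝ := min κ₁ (min (δ / 2) (ε / 2)) with hκdef
    have k1 : κ ≤ κ₁ := min_le_left _ _
    have k2 : κ ≤ δ / 2 := (min_le_right _ _).trans (min_le_left _ _)
    have k3 : κ ≤ ε / 2 := (min_le_right _ _).trans (min_le_right _ _)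
    refine ⟨min s₀ s, lt_min hs₀ hs, ?_⟩
    have hone : ∀ l : List (M ⊕ N), Gm f A K κ l → l.length = i + 1 →
        ∃ e : Ch (ZMod 2) M, (∀ l₀ : List M, l = l₀.map Sum.inl → Sm (min s₀ s) l₀ →
          e = Finsupp.single l₀ 1) ∧ bd e = ext Ψ (bdL (ZMod 2) l) ∧
          Sup (fun m => m.length = l.length ∧ Sm s m ∧ ∀ z ∈ l, In (Pn f A ε (qm f z)) m) e := by
      intro l hG hlen
      by_cases hp : ∃ l₀ : List M, l = l₀.map Sum.inl ∧ Sm (min s₀ s) l₀
      · obtain ⟨l₀, rfl, hsm⟩ := hp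
        refine ⟨Finsupp.single l₀ 1, ?_, ?_, ?_⟩
        · intro l₁ h _
          rw [List.map_injective_iff.2 Sum.inl_injective h]
        · rw [bd_single, one_smul, ← pf_bdL, Chart.ext_pf]
          have h1 := ext_congr (sup_bdL (k := ZMod 2) l₀) (u := fun l' => Ψ (l'.map Sum.inl))
            (v := fun l' => Finsupp.single l' (1 : ZMod 2)) (fun l' hl' =>
              (hΨ (l'.map Sum.inl) ((hG.sub (hl'.1.map _)).mono k1) (by
                have := hl'.2
                rw [List.length_map] at hlen ⊢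
                omega)).1 l' rfl fun x hx y hy =>
                  (hsm x (hl'.1.subset hx) y (hl'.1.subset hy)).trans_le (min_le_left _ _))
          rw [h1, SupA.ext_self]
        · refine Sup.single 1 ⟨by rw [List.length_map], sm_mono (min_le_right _ _) hsm, ?_⟩
          intro z hz x hx
          refine ⟨(hG.1 (Sum.inl x) (List.mem_map_of_mem hx)).1 x rfl, ?_⟩
          exact (hG.2 (qm f (Sum.inl x)) (List.mem_map_of_mem (List.mem_map_of_mem hx))
            (qm f z) (List.mem_map_of_mem hz)).trans_le (k3.trans (by linarith))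
      · obtain ⟨z₀, l', rfl⟩ : ∃ z₀ l', l = z₀ :: l' := by
          cases l with
          | nil => simp at hlen
          | cons g a' => exact ⟨g, a', rfl⟩
        have hz₀ : z₀ ∈ z₀ :: l' := List.mem_cons_self
        have hface : Sup (fun m : List (M ⊕ N) => Gm f A K κ₁ m ∧ m.length = i ∧
            ∀ y ∈ m, y ∈ z₀ :: l') (bdL (ZMod 2) (z₀ :: l')) := by
          refine (sup_bdL (z₀ :: l')).mono fun m hm => ?_
          obtain ⟨h1, h2⟩ := hm
          exact ⟨(hG.sub h1).mono k1, by omega, fun x hx => h1.subset hx⟩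
        set c : Ch (ZMod 2) M := ext Ψ (bdL (ZMod 2) (z₀ :: l')) with hc
        have hbdc : bd c = 0 := by
          have h1 : bd c = ext (fun m => bd (Ψ m)) (bdL (ZMod 2) (z₀ :: l')) := by
            rw [hc]
            simp only [ext, Finsupp.linearCombination_apply, Finsupp.sum, map_sum, map_smul]
          rw [h1, ext_congr hface (v := fun m => ext Ψ (bdL (ZMod 2) m))
            (fun m hm => (hΨ m hm.1 hm.2.1.le).2.1), ← ext_bdL, bd_bdL, map_zero]
        have hsupc : Sup (fun m => m.length = i ∧ Sm s' m ∧ In (Pn f A δ (qm f z₀)) m) c := by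
          refine Sup.ext hface fun m hm => ?_
          obtain ⟨hm1, hm2, hm3⟩ := hm
          refine (hΨ m hm1 hm2.le).2.2.mono fun m' hm' => ?_
          obtain ⟨h1, h2, h3⟩ := hm'
          refine ⟨h1.trans hm2, sm_mono (min_le_right _ _) h2, fun x hx => ?_⟩
          have hne : m ≠ [] := by
            rintro rfl
            rw [List.length_nil, List.length_eq_zero_iff] at h1
            rw [h1] at hx
            simp at hx
          obtain ⟨z, hz⟩ := List.exists_mem_of_ne_nil m hne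
          obtain ⟨hxA, hxz⟩ := h3 z hz x hx
          refine ⟨hxA, ?_⟩
          have h4 := hG.2 (qm f z) (List.mem_map_of_mem (hm3 z hz)) (qm f z₀)
            (List.mem_map_of_mem hz₀)
          have h5 := dist_triangle (f x) (qm f z) (qm f z₀)
          have h6 := hxz.trans_le (min_le_left _ _)
          linarith
        obtain ⟨e, he, hesup⟩ := hfill' (qm f z₀) (hG.1 z₀ hz₀).2 i c hbdc hsupc
        refine ⟨e, fun l₀ h1 h2 => absurd ⟨l₀, h1, h2⟩ hp, he, hesup.mono fun m hm => ?_⟩
        obtain ⟨h1, h2, h3⟩ := hm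
        refine ⟨h1.trans hlen.symm, h2, fun z hz x hx => ?_⟩
        obtain ⟨hxA, hxz⟩ := h3 x hx
        refine ⟨hxA, ?_⟩
        have h4 := hG.2 (qm f z₀) (List.mem_map_of_mem hz₀) (qm f z) (List.mem_map_of_mem hz)
        have h5 := dist_triangle (f x) (qm f z₀) (qm f z)
        linarith
    choose! e he1 he2 he3 using hone
    refine ⟨fun l => if l.length ≤ i then Ψ l else e l, ?_⟩
    intro l hG hlen
    have hext : ext (fun l => if l.length ≤ i then Ψ l else e l) (bdL (ZMod 2) l) =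
        ext Ψ (bdL (ZMod 2) l) := by
      refine ext_congr (sup_bdL l) fun m hm => ?_
      rw [if_pos (by have := hm.2; omega)]
    rw [hext]
    by_cases hli : l.length ≤ i
    · simp only [if_pos hli]
      obtain ⟨h1, h2, h3⟩ := hΨ l (hG.mono k1) hli
      refine ⟨fun l₀ hl₀ hsm => h1 l₀ hl₀ (sm_mono (min_le_left _ _) hsm), h2,
        h3.mono fun m hm => ⟨hm.1, sm_mono (min_le_left _ _) hm.2.1, fun z hz x hx => ?_⟩⟩
      obtain ⟨hxA, hxz⟩ := hm.2.2 z hz x hx
      exact ⟨hxA, hxz.trans_le (min_le_right _ _)⟩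
    · simp only [if_neg hli]
      have hli' : l.length = i + 1 := by omega
      exact ⟨he1 l hG hli', he2 l hG hli', he3 l hG hli'⟩

end Psi

end Vale.Agent.P260
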