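import Vale.Agent.P260.Fib
import Mathlib.Analysis.Convex.Contractible

/-!
# P260: topological forms
-/

set_option autoImplicit false
set_option linter.all false

namespace Vale.Agent.P260

open Metric Set Topology

section Points

/-- points of manifolds are cell-like -/
theorem cellLike_singleton {n : ℕ} {X : Type*} [TopologicalSpace X]
    [ChartedSpace (EuclideanSpace ℝ (Fin n)) X] (x : X) : CellLike ({x} : Set X) := by
  refine ⟨isCompact_singleton, isConnected_singleton, fun U hU hxU => ?_⟩
  obtain ⟨β, hβ, hβ0, hr⟩ := exists_chart (n := n) x (hU.mem_nhds (hxU (mem_singleton x)))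
  refine ⟨range β, hβ.isOpen_range, singleton_subset_iff.2 ⟨0, hβ0⟩, hr, ?_⟩
  have : ContractibleSpace (range β) :=
    (hβ.isEmbedding.toHomeomorph.symm).contractibleSpace
  have h := (id_nullhomotopic (range β)).comp_right (ContinuousMap.inclusion hr)
  rwa [ContinuousMap.comp_id] at h

end Points

section Equi

/-- a surjective self-map with equicontinuous iterates is injective -/
theorem inj_of_equi {M : Type*} [MetricSpace M] [CompactSpace M] {h : M → M}
    (hs : Function.Surjective h) (he : UniformEquicontinuous (fun k : ℕ => h^[k])) :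
    Function.Injective h := by
  rw [Metric.uniformEquicontinuous_iff] at he
  intro x y hxy
  by_contra hne
  have hpos : 0 < dist x y := dist_pos.2 hne
  obtain ⟨δ', hδ', he'⟩ := he (dist x y) hpos
  obtain ⟨δ, hδ, heδ⟩ := he (δ' / 2) (by linarith)
  choose s hs' using hs
  have hback : ∀ (m : ℕ) (z : M), h^[m] (s^[m] z) = z := by
    intro m
    exact Function.RightInverse.iterate (f := h) (g := s) (fun z => hs' z) m
  let p : ℕ → M × M := fun k => (s^[k] x, s^[k] y)
  obtain ⟨a, φ, hφ, ha⟩ := CompactSpace.tendsto_subseq p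
  obtain ⟨K, hK⟩ := Metric.cauchySeq_iff.1 ha.cauchySeq δ hδ
  have hlt : φ K < φ (K + 1) := hφ (Nat.lt_succ_self K)
  have hd := hK (K + 1) (Nat.le_succ K) K le_rfl
  obtain ⟨m, hm⟩ : ∃ m, φ (K + 1) = (φ K + 1) + m := ⟨φ (K + 1) - (φ K + 1), by omega⟩
  have hd' : dist (p (φ (K + 1))) (p (φ K)) < δ := hd
  rw [Prod.dist_eq, max_lt_iff] at hd'
  have key : ∀ z : M, dist (s^[φ (K + 1)] z) (s^[φ K] z) < δ → dist (s^[m] z) (h z) < δ' / 2 := by
    intro z hz
    have h1 := heδ _ _ hz (φ K + 1)
    rw [hm, Function.iterate_add_apply s (φ K + 1) m z, hback] at h1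
    rwa [Function.iterate_succ_apply' h (φ K), hback] at h1
  have h1 := key x hd'.1
  have h2 := key y hd'.2
  rw [hxy] at h1
  have h3 : dist (s^[m] x) (s^[m] y) < δ' := by
    have := dist_triangle_right (s^[m] x) (s^[m] y) (h y)
    linarith
  have h4 := he' _ _ h3 m
  rw [hback, hback] at h4
  exact lt_irrefl _ h4

end Equi

section Top

variable {n : ℕ} {M N : Type*} [TopologicalSpace M] [TopologicalSpace N]
  [T2Space M] [T2Space N] [CompactSpace M] [CompactSpace N]
  [ChartedSpace (EuclideanSpace ℝ (Fin n)) M] [ChartedSpace (EuclideanSpace ℝ (Fin n)) N]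

theorem charts (X : Type*) [TopologicalSpace X] [ChartedSpace (EuclideanSpace ℝ (Fin n)) X] :
    ∀ x : X, ∃ β : (Fin n → ℝ) → X, IsOpenEmbedding β ∧ β 0 = x := fun x => by
  obtain ⟨β, hβ, hβ0, -⟩ := exists_chart (n := n) x Filter.univ_mem
  exact ⟨β, hβ, hβ0⟩

theorem exists_line {X Y : Type*} [TopologicalSpace X] [TopologicalSpace Y] {a b : C(X, Y)}
    (h : a.Homotopic b) : ∃ H : ℝ → X → Y, Continuous (fun p : ℝ × X => H p.1 p.2) ∧
      H 0 = a ∧ H 1 = b := by
  obtain ⟨F⟩ := h
  refine ⟨fun t x => F (projIcc 0 1 zero_le_one t, x), ?_, ?_, ?_⟩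
  · exact F.continuous.comp ((continuous_projIcc.comp continuous_fst).prodMk continuous_snd)
  · funext x
    have : projIcc (0 : ℝ) 1 zero_le_one 0 = 0 := projIcc_left zero_le_one
    show F (projIcc (0 : ℝ) 1 zero_le_one 0, x) = a x
    rw [this, F.apply_zero]
  · funext x
    have : projIcc (0 : ℝ) 1 zero_le_one 1 = 1 := projIcc_right zero_le_one
    show F (projIcc (0 : ℝ) 1 zero_le_one 1, x) = b x
    rw [this, F.apply_one]

/-- a map with a right homotopy inverse is onto -/
theorem surj_top (hn : 0 < n) (f : C(M, N)) (g : C(N, M))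
    (hfg : (f.comp g).Homotopic (ContinuousMap.id N)) : Function.Surjective f := by
  have hm : TopologicalSpace.MetrizableSpace M := metrizable n M
  have hm' : TopologicalSpace.MetrizableSpace N := metrizable n N
  letI : MetricSpace M := TopologicalSpace.metrizableSpaceMetric M
  letI : MetricSpace N := TopologicalSpace.metrizableSpaceMetric N
  obtain ⟨H, hH, h0, h1⟩ := exists_line hfg
  exact surj_of_right_inv hn (charts (n := n) N) f.continuous g.continuous H hH h0 h1

/-- connectedness of the fibres -/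
theorem conn_top [ConnectedSpace M] (hn : 0 < n) (f : C(M, N)) (g : C(N, M))
    (hfg : (f.comp g).Homotopic (ContinuousMap.id N)) {E : Set N} (hE : IsClosed E)
    (hint : interior (f ⁻¹' E) = ∅)
    (hcell : ∀ y ∉ E, ∃ G₁ G₂ : Set M, CellLike G₁ ∧ CellLike G₂ ∧ f ⁻¹' {y} = G₁ ∪ G₂) :
    ∀ y, IsConnected (f ⁻¹' {y}) := by
  have hm : TopologicalSpace.MetrizableSpace M := metrizable n M
  have hm' : TopologicalSpace.MetrizableSpace N := metrizable n N
  letI : MetricSpace M := TopologicalSpace.metrizableSpaceMetric M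
  letI : MetricSpace N := TopologicalSpace.metrizableSpaceMetric N
  obtain ⟨H, hH, h0, h1⟩ := exists_line hfg
  exact fib_conn hn (charts (n := n) M) (charts (n := n) N) f.continuous g.continuous H hH h0 h1
    hE hint hcell

omit [T2Space M] [CompactSpace N] [ChartedSpace (EuclideanSpace ℝ (Fin n)) M]
  [ChartedSpace (EuclideanSpace ℝ (Fin n)) N] in
/-- light maps are homeomorphisms -/
theorem homeo_of_conn (f : C(M, N)) (hs : Function.Surjective f)
    (hc : ∀ y, IsPreconnected (f ⁻¹' {y})) (ht : ∀ y, IsTotallyDisconnected (f ⁻¹' {y})) :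
    IsHomeomorph f := by
  rw [isHomeomorph_iff_continuous_bijective]
  refine ⟨f.continuous, fun x x' h => ?_, hs⟩
  exact ht (f x) (f ⁻¹' {f x}) Subset.rfl (hc (f x)) rfl h.symm

end Top

/-- an injective map of closed manifolds is a homeomorphism -/
theorem homeo_of_inj (n : ℕ) {M N : Type*} [TopologicalSpace M] [TopologicalSpace N] [T2Space N]
    [CompactSpace M] [ChartedSpace (EuclideanSpace ℝ (Fin n)) M]
    [ChartedSpace (EuclideanSpace ℝ (Fin n)) N] [Nonempty M] [ConnectedSpace N] (f : C(M, N))
    (hi : Function.Injective f) : IsHomeomorph f := by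
  rw [isHomeomorph_iff_continuous_bijective]
  refine ⟨f.continuous, hi, ?_⟩
  have h1 : IsOpen (f '' univ) := isOpen_image (n := n) isOpen_univ f.continuous.continuousOn
    hi.injOn
  have h2 : IsClosed (f '' univ) := (isCompact_univ.image f.continuous).isClosed
  have h3 : f '' univ = univ := IsClopen.eq_univ ⟨h2, h1⟩ (univ_nonempty.image f)
  intro y
  have : y ∈ f '' univ := by rw [h3]; trivial
  obtain ⟨x, -, hx⟩ := this
  exact ⟨x, hx⟩

end Vale.Agent.P260
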