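import Vale.Agent.P260.Deg

/-!
# P260: small cycles of degree zero bound
-/

set_option autoImplicit false
set_option linter.all false

namespace Vale.Agent.P260

open Metric Set Topology
open Vale.Agent.P239.M

section Uniq

variable {X : Type*} [MetricSpace X] {n : ℕ}

open Classical in
/-- a cycle of degree zero on a coordinate cube can be pushed off that cube -/
theorem push_step (hn : 0 < n) {β : (Fin n → ℝ) → X} (hβ : IsOpenEmbedding β) (K : Set X) {ρ : ℝ}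
    (hρ : 0 < ρ) : ∃ ρ' > 0, ∀ κ' > 0, ∃ κ > 0, ∀ c : Ch (ZMod 2) X, Cyc n κ c →
      Sup (Far ρ K) c → (∀ y ∈ β '' Q n 2, dg β c y = 0) →
      ∃ e cm : Ch (ZMod 2) X, c = bd e + cm ∧ Sup (Sm κ') e ∧ Cyc n κ' cm ∧
        Sup (Far ρ' (K ∪ β '' Q n 1)) cm := by
  obtain ⟨r1, hr1, hn1⟩ := fund_near hβ (show (1 : ℝ) < 2 by norm_num)
  obtain ⟨r4, hr4, hn4⟩ := fund_near hβ (show (4 : ℝ) < 5 by norm_num)
  have hr : 0 < min r1 ρ := lt_min hr1 hρ
  set r : ℝ := min r1 ρ with hrdef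
  have hrr1 : r ≤ r1 := min_le_left _ _
  have hrρ : r ≤ ρ := min_le_right _ _
  refine ⟨r / 2, by linarith, fun κ' hκ' => ?_⟩
  have hκ2 : 0 < min κ' (r / 2) := lt_min hκ' (by linarith)
  set κ₂ : ℝ := min κ' (r / 2) with hκ₂def
  have hκ₂' : κ₂ ≤ κ' := min_le_left _ _
  have hκ₂r : κ₂ ≤ r / 2 := min_le_right _ _
  obtain ⟨kL, hkL, hLD⟩ := ld1S hn hβ κ₂ hκ2
  obtain ⟨kf, hkf, hfar⟩ := dg_far hβ hr4
  refine ⟨min (min kL kf) (min r4 κ'), lt_min (lt_min hkL hkf) (lt_min hr4 hκ'),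
    fun c hc hcK hdg => ?_⟩
  set κ : ℝ := min (min kL kf) (min r4 κ') with hκdef
  have k1 : κ ≤ kL := (min_le_left _ _).trans (min_le_left _ _)
  have k2 : κ ≤ kf := (min_le_left _ _).trans (min_le_right _ _)
  have k3 : κ ≤ r4 := (min_le_right _ _).trans (min_le_left _ _)
  have k4 : κ ≤ κ' := (min_le_right _ _).trans (min_le_right _ _)
  set c1 : Ch (ZMod 2) X := c.filter (In (β '' Q n 5)) with hc1def
  set c2 : Ch (ZMod 2) X := c.filter (fun l => ¬ In (β '' Q n 5) l) with hc2def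
  have hsum : c1 + c2 = c := Finsupp.filter_add_filter_not c (In (β '' Q n 5))
  have hs1 : ∀ l ∈ c1.support, l ∈ c.support ∧ In (β '' Q n 5) l := by
    intro l hl
    rwa [hc1def, Finsupp.support_filter, Finset.mem_filter] at hl
  have hs2 : ∀ l ∈ c2.support, l ∈ c.support ∧ ¬ In (β '' Q n 5) l := by
    intro l hl
    rwa [hc2def, Finsupp.support_filter, Finset.mem_filter] at hl
  -- a small list with an element in `Q 2` is in `Q 5`
  have hin5 : ∀ l ∈ c.support, ∀ x ∈ l, x ∈ β '' Q n 2 → In (β '' Q n 5) l := by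
    intro l hl x hx hx2 w hw
    exact hn4 x (Q_sub (by norm_num) hx2) w (((hc.2 l hl).2 x hx w hw).trans_le k3)
  have hdg1 : ∀ y ∈ β '' Q n 2, dg β c1 y = 0 := by
    intro y hy
    have h2 : dg β c2 y = 0 := by
      refine (hfar c2 y (Q_sub (by norm_num) hy) ?_).1
      intro l hl
      obtain ⟨hl1, hl2⟩ := hs2 l hl
      refine ⟨sm_mono k2 (hc.2 l hl1).2, ?_⟩
      unfold In at hl2
      push Not at hl2
      obtain ⟨z, hz, hz5⟩ := hl2
      refine ⟨z, hz, ?_⟩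
      by_contra hlt
      exact hz5 (hn4 y (Q_sub (by norm_num) hy) z (not_le.1 hlt))
    have h3 := inv_dg_add β c1 c2 y
    rw [hsum, hdg y hy, h2, add_zero] at h3
    exact h3.symm
  obtain ⟨e, cm, hce, he, hcm⟩ := hLD c1
    (fun l hl => ⟨(hc.2 l (hs1 l hl).1).1, sm_mono k1 (hc.2 l (hs1 l hl).1).2,
      fun x hx => Q_sub (by norm_num) ((hs1 l hl).2 x hx)⟩)
    (β '' Q n 1) r (hκ₂r.trans (by linarith)) (by
      intro l hl x hx z hz
      by_contra hlt
      rw [not_le] at hlt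
      have hx2 : x ∈ β '' Q n 2 := hn1 z hz x (by rw [dist_comm]; exact hlt.trans_le hrr1)
      have := mem_bd_filter hl hx fun l' hl' hxl' => hin5 l' hl' x hxl' hx2
      rw [hc.1] at this
      simp at this)
    (by
      rintro y ⟨z, hz, hyz⟩
      exact hdg1 y (hn1 z hz y (by rw [dist_comm]; exact hyz.trans_le hrr1)))
  refine ⟨e, cm + c2, by rw [← add_assoc, ← hce, hsum], Sup.mono (fun l hl =>
    sm_mono hκ₂' hl.2.1) he, ⟨?_, ?_⟩, ?_⟩
  · have h1 : bd c = bd (bd e) + bd (cm + c2) := by rw [← map_add, ← add_assoc, ← hce, hsum]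
    rw [hc.1, bd_bd, zero_add] at h1
    exact h1.symm
  · refine Sup.add (Sup.mono (fun l hl => ⟨hl.1, sm_mono hκ₂' hl.2.1⟩) hcm) ?_
    intro l hl
    exact ⟨(hc.2 l (hs2 l hl).1).1, sm_mono k4 (hc.2 l (hs2 l hl).1).2⟩
  · refine Sup.add ?_ ?_
    · intro l hl x hx z hz
      obtain ⟨h1, h2, h3, h4, h5⟩ := hcm l hl
      rcases hz with hz | hz
      · obtain ⟨l', hl', x', hx', hxx⟩ := h5 x hx
        have h6 := hcK l' (hs1 l' hl').1 x' hx' z hz
        have h7 := dist_triangle x' x z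
        rw [dist_comm x' x] at h7
        linarith
      · have h6 := h4 x hx z hz
        linarith
    · intro l hl x hx z hz
      obtain ⟨h1, h2⟩ := hs2 l hl
      rcases hz with hz | hz
      · have h6 := hcK l h1 x hx z hz
        linarith
      · by_contra hlt
        rw [not_le] at hlt
        exact h2 (hin5 l h1 x hx (hn1 z hz x (by rw [dist_comm]; linarith)))

/-- degree zero at one point implies degree zero on a coordinate cube -/
theorem dg_zero_cube (hn : 0 < n) [PreconnectedSpace X]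
    (hch : ∀ x : X, ∃ β : (Fin n → ℝ) → X, IsOpenEmbedding β ∧ β 0 = x)
    {β β' : (Fin n → ℝ) → X} (hβ : IsOpenEmbedding β) (hβ' : IsOpenEmbedding β') {x : X}
    (hx : x ∈ β '' Q n 2) : ∃ κ > 0, ∀ c : Ch (ZMod 2) X, Cyc n κ c → dg β c x = 0 →
      ∀ y ∈ β' '' Q n 2, dg β' c y = 0 := by
  have hcomp : IsCompact (β' '' Q n 2) := (isCompact_closedBall _ _).image hβ'.continuous
  have key : ∃ κ > 0, ∀ c : Ch (ZMod 2) X, Cyc n κ c → ∀ y ∈ β' '' Q n 2,
      dg β c x = 0 → dg β' c y = 0 := by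
    refine hcomp.induction_on (p := fun s => ∃ κ > 0, ∀ c : Ch (ZMod 2) X, Cyc n κ c → ∀ y ∈ s,
      dg β c x = 0 → dg β' c y = 0) ⟨1, one_pos, fun c _ y hy => absurd hy (notMem_empty y)⟩ ?_ ?_ ?_
    · rintro s t hst ⟨κ, hκ, h⟩
      exact ⟨κ, hκ, fun c hc y hy => h c hc y (hst hy)⟩
    · rintro s t ⟨κ, hκ, h⟩ ⟨κ', hκ', h'⟩
      refine ⟨min κ κ', lt_min hκ hκ', fun c hc y hy => ?_⟩
      rcases hy with hy | hy
      · exact h c (hc.mono (min_le_left _ _)) y hy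
      · exact h' c (hc.mono (min_le_right _ _)) y hy
    · intro y hy
      obtain ⟨r, hr, κ₁, hκ₁, h1⟩ := dg_near hn hβ' hy one_pos
      obtain ⟨κ₂, hκ₂, h2⟩ := dg_conn hn hch hβ hβ' hx hy
      refine ⟨ball y r, mem_nhdsWithin_of_mem_nhds (ball_mem_nhds y hr), min κ₁ κ₂,
        lt_min hκ₁ hκ₂, fun c hc z hz h0 => ?_⟩
      rw [h1 c (hc.mono (min_le_left _ _)).2 (hc.far _) z hz, ← h2 c (hc.mono (min_le_right _ _)),
        h0]
  obtain ⟨κ, hκ, h⟩ := key
  exact ⟨κ, hκ, fun c hc h0 y hy => h c hc y hy h0⟩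

theorem fin_min {ι : Type*} (t : Finset ι) (P : ι → ℝ → Prop)
    (hP : ∀ i a b, a ≤ b → P i b → P i a) (h : ∀ i ∈ t, ∃ κ > 0, P i κ) :
    ∃ κ > 0, ∀ i ∈ t, P i κ := by
  classical
  induction t using Finset.induction_on with
  | empty => exact ⟨1, one_pos, fun i hi => by simp at hi⟩
  | insert j s hj ih =>
    obtain ⟨κ, hκ, h1⟩ := ih fun i hi => h i (Finset.mem_insert_of_mem hi)
    obtain ⟨κ', hκ', h2⟩ := h j (Finset.mem_insert_self _ _)
    refine ⟨min κ κ', lt_min hκ hκ', fun i hi => ?_⟩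
    rcases Finset.mem_insert.1 hi with rfl | hi
    · exact hP _ _ _ (min_le_right _ _) h2
    · exact hP _ _ _ (min_le_left _ _) (h1 i hi)

/-- small cycles of degree zero bound small chains -/
theorem uniq (hn : 0 < n) [CompactSpace X] [PreconnectedSpace X]
    (hch : ∀ x : X, ∃ β : (Fin n → ℝ) → X, IsOpenEmbedding β ∧ β 0 = x)
    {β : (Fin n → ℝ) → X} (hβ : IsOpenEmbedding β) {x : X} (hx : x ∈ β '' Q n 2) :
    ∀ κ' > 0, ∃ κ > 0, ∀ c : Ch (ZMod 2) X, Cyc n κ c → dg β c x = 0 →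
      ∃ e : Ch (ZMod 2) X, Sup (Sm κ') e ∧ c = bd e := by
  classical
  have hch' := hch
  choose γ hγ hγ0 using hch
  have hnb : ∀ x, γ x '' Q n 1 ∈ 𝓝 x := fun x => by
    have h1 : ball (0 : Fin n → ℝ) 1 ⊆ Q n 1 := ball_subset_closedBall
    refine Filter.mem_of_superset ?_ (image_mono h1)
    refine ((hγ x).isOpenMap _ isOpen_ball).mem_nhds ?_
    exact ⟨0, mem_ball_self one_pos, hγ0 x⟩
  obtain ⟨t, -, ht⟩ := (isCompact_univ (X := X)).elim_nhds_subcover (fun x => γ x '' Q n 1)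
    fun x _ => hnb x
  have key : ∀ s : Finset X, s ⊆ t → ∃ ρ > 0, ∀ κ' > 0, ∃ κ > 0, ∀ c : Ch (ZMod 2) X, Cyc n κ c →
      (∀ a ∈ t, ∀ y ∈ γ a '' Q n 2, dg (γ a) c y = 0) →
      ∃ e cm : Ch (ZMod 2) X, c = bd e + cm ∧ Sup (Sm κ') e ∧ Cyc n κ' cm ∧
        Sup (Far ρ (⋃ a ∈ s, γ a '' Q n 1)) cm := by
    intro s
    induction s using Finset.induction_on with
    | empty =>
      intro _
      refine ⟨1, one_pos, fun κ' hκ' => ⟨κ', hκ', fun c hc _ => ⟨0, c, by simp, Sup.zero, hc, ?_⟩⟩⟩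
      intro l hl x hx z hz
      simp at hz
    | insert j s hj ih =>
      intro hjs
      obtain ⟨ρ, hρ, H⟩ := ih fun a ha => hjs (Finset.mem_insert_of_mem ha)
      obtain ⟨ρ', hρ', H'⟩ := push_step hn (hγ j) (⋃ a ∈ s, γ a '' Q n 1) hρ
      refine ⟨ρ', hρ', fun κ' hκ' => ?_⟩
      obtain ⟨κ₁, hκ₁, h1⟩ := H' κ' hκ'
      obtain ⟨κ₂, hκ₂, h2⟩ := dg_bd (hγ j)
      obtain ⟨κ, hκ, h⟩ := H (min κ' (min κ₁ κ₂)) (lt_min hκ' (lt_min hκ₁ hκ₂))
      refine ⟨κ, hκ, fun c hc hdg => ?_⟩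
      obtain ⟨e, cm, hce, he, hcm, hfar⟩ := h c hc hdg
      obtain ⟨e', cm', hce', he', hcm', hfar'⟩ := h1 cm
        (hcm.mono ((min_le_right _ _).trans (min_le_left _ _))) hfar (by
          intro y hy
          have h3 := inv_dg_add (γ j) (bd e) cm y
          rw [← hce, hdg j (hjs (Finset.mem_insert_self _ _)) y hy,
            (h2 e (Sup.mono (fun l hl => sm_mono ((min_le_right _ _).trans (min_le_right _ _)) hl)
              he) y (Q_sub (by norm_num) hy)).1, zero_add] at h3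
          exact h3.symm)
      refine ⟨e + e', cm', by rw [map_add, add_assoc, ← hce', ← hce],
        Sup.add (Sup.mono (fun l hl => sm_mono (min_le_left _ _) hl) he) he', hcm', ?_⟩
      rw [Finset.set_biUnion_insert, union_comm]
      exact hfar'
  obtain ⟨ρ, hρ, H⟩ := key t (Finset.Subset.refl t)
  obtain ⟨κ₀, hκ₀, h0⟩ := fin_min t (fun a κ => ∀ c : Ch (ZMod 2) X, Cyc n κ c → dg β c x = 0 →
      ∀ y ∈ γ a '' Q n 2, dg (γ a) c y = 0)
    (fun i a b hab h c hc => h c (hc.mono hab))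
    (fun a _ => dg_zero_cube hn hch' hβ (hγ a) hx)
  intro κ' hκ'
  obtain ⟨κ, hκ, h⟩ := H κ' hκ'
  refine ⟨min κ κ₀, lt_min hκ hκ₀, fun c hc hdg => ?_⟩
  obtain ⟨e, cm, hce, he, hcm, hfar⟩ := h c (hc.mono (min_le_left _ _))
    fun a ha => h0 a ha c (hc.mono (min_le_right _ _)) hdg
  have hcm0 : cm = 0 := by
    rw [← Finsupp.support_eq_empty, Finset.eq_empty_iff_forall_notMem]
    intro l hl
    have hne : l ≠ [] := by
      intro h; have := (hcm.2 l hl).1; rw [h] at this; simp at this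
    obtain ⟨y, hy⟩ := List.exists_mem_of_ne_nil l hne
    have := hfar l hl y hy y (ht (mem_univ y))
    rw [dist_self] at this
    linarith
  exact ⟨e, he, by rw [hce, hcm0, add_zero]⟩

end Uniq

end Vale.Agent.P260
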