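import Vale.Agent.P260.Psi

/-!
# P260: a map with cell-like fibres has local degree one
-/

set_option autoImplicit false
set_option linter.all false

namespace Vale.Agent.P260

open Metric Set Topology
open Vale.Agent.P239.M

section Viet

variable {M N : Type*} [MetricSpace M] [MetricSpace N]

theorem sup_filter {X : Type*} {c : Ch (ZMod 2) X} {P R : List X → Prop} [DecidablePred R]
    (hc : Sup P c) : Sup (fun l => P l ∧ R l) (c.filter R) := by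
  intro l hl
  rw [Finsupp.support_filter, Finset.mem_filter] at hl
  exact ⟨hc l hl.1, hl.2⟩

theorem gm_inr {f : M → N} {A : Set M} {K : Set N} {κ : ℝ} {l : List N} (h : ∀ y ∈ l, y ∈ K)
    (hs : Sm κ l) : Gm f A K κ (l.map Sum.inr) := by
  refine ⟨fun y hy => ?_, ?_⟩
  · obtain ⟨z, hz, rfl⟩ := List.mem_map.1 hy
    exact ⟨fun x hx => by simp at hx, h z hz⟩
  · rw [List.map_map]
    have : qm f ∘ (Sum.inr : N → M ⊕ N) = id := rfl
    rw [this, List.map_id]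
    exact hs

theorem gm_of {f : M → N} {A : Set M} {K : Set N} {κ : ℝ} {l : List M} {m : List (M ⊕ N)}
    (hm : ∀ z ∈ m, ∃ x ∈ l, z = Sum.inl x ∨ z = (Sum.inr ∘ f) x) (hA : In A l)
    (hK : ∀ x ∈ l, f x ∈ K) (hs : Sm κ (l.map f)) : Gm f A K κ m := by
  have hq : ∀ z ∈ m, ∃ x ∈ l, qm f z = f x := by
    intro z hz
    obtain ⟨x, hx, rfl | rfl⟩ := hm z hz
    · exact ⟨x, hx, rfl⟩
    · exact ⟨x, hx, rfl⟩
  refine ⟨fun y hy => ⟨fun x hx => ?_, ?_⟩, ?_⟩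
  · obtain ⟨x', hx', rfl | rfl⟩ := hm y hy
    · rw [Sum.inl.injEq] at hx
      rw [← hx]
      exact hA x' hx'
    · simp at hx
  · obtain ⟨x, hx, h⟩ := hq y hy
    rw [h]
    exact hK x hx
  · intro a ha b hb
    obtain ⟨z, hz, rfl⟩ := List.mem_map.1 ha
    obtain ⟨w, hw, rfl⟩ := List.mem_map.1 hb
    obtain ⟨x, hx, h⟩ := hq z hz
    obtain ⟨y, hy, h'⟩ := hq w hw
    rw [h, h']
    exact hs _ (List.mem_map_of_mem hx) _ (List.mem_map_of_mem hy)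

theorem psi_chain {Y X : Type*} {Ψ : List Y → Ch (ZMod 2) X} {P : List Y → Prop}
    (hΨ : ∀ l, P l → bd (Ψ l) = ext Ψ (bdL (ZMod 2) l)) {d : Ch (ZMod 2) Y} (hd : Sup P d) :
    bd (ext Ψ d) = ext Ψ (bd d) := by
  have h1 : bd (ext Ψ d) = ext (fun l => bd (Ψ l)) d := by
    simp only [ext, Finsupp.linearCombination_apply, Finsupp.sum, map_sum, map_smul]
  rw [h1, ext_congr hd (v := fun l => ext Ψ (bdL (ZMod 2) l)) hΨ, ← ext_bdL]

theorem pf_eq_self {X : Type*} {p : X → X} {c : Ch (ZMod 2) X}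
    (h : ∀ l ∈ c.support, ∀ x ∈ l, p x = x) : pf p c = c := by
  rw [SupA.eq_ext' (pf p) c]
  have h1 := ext_congr (P := fun l => l ∈ c.support) (c := c)
    (u := fun l => pf p (Finsupp.single l (1 : ZMod 2)))
    (v := fun l => Finsupp.single l (1 : ZMod 2)) (fun l hl => hl) (fun l hl => by
      rw [pf_single]
      congr 1
      conv_rhs => rw [← List.map_id l]
      exact List.map_congr_left fun x hx => h l hl x hx)
  rw [h1, SupA.ext_self]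

/-- moving the vertices of a chain into a set -/
theorem move_chain {n : ℕ} {B : Set N} {y₀ : N} {κ₁ κ₂ r₀ R r' : ℝ} (hκ1 : 0 < κ₁)
    (h4 : 4 * κ₁ ≤ κ₂) (hR : r₀ + 2 * κ₁ ≤ R) {c' e cm : Ch (ZMod 2) N}
    (hc'P : Sup (fun l => In (ball y₀ r₀) l ∧ In B l) c') (hce : c' = bd e + cm)
    (he : Sup (fun l => l.length = n + 2 ∧ Sm κ₁ l ∧
      ∀ x ∈ l, ∃ l' ∈ c'.support, ∃ x' ∈ l', dist x x' < κ₁) e)
    (hcm : Sup (fun l => l.length = n + 1 ∧ Sm κ₁ l ∧ Far (r' - κ₁) {y₀} l ∧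
      ∀ x ∈ l, ∃ l' ∈ c'.support, ∃ x' ∈ l', dist x x' < κ₁) cm) :
    ∃ e' cm' : Ch (ZMod 2) N, c' = bd e' + cm' ∧
      Sup (fun l => l.length = n + 2 ∧ Sm κ₂ l ∧ ∀ y ∈ l, y ∈ B ∩ closedBall y₀ R) e' ∧
      Sup (fun l => l.length = n + 1 ∧ Sm κ₂ l ∧ (∀ y ∈ l, y ∈ B ∩ closedBall y₀ R) ∧
        ∀ y ∈ l, r' - 2 * κ₁ ≤ dist y y₀) cm' := by
  classical
  let p : N → N := fun y => if y ∈ B then y else
    if h : ∃ z ∈ B, dist y z < κ₁ then h.choose else y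
  have hp1 : ∀ y ∈ B, p y = y := fun y hy => if_pos hy
  have hp2 : ∀ y, (∃ z ∈ B, dist y z < κ₁) → p y ∈ B ∧ dist y (p y) < κ₁ := by
    intro y hy
    by_cases h : y ∈ B
    · rw [hp1 y h]
      exact ⟨h, by rw [dist_self]; exact hκ1⟩
    · have e1 : p y = hy.choose := by
        simp only [p, if_neg h, dif_pos hy]
      rw [e1]
      exact hy.choose_spec
  clear_value p
  have hpc : pf p c' = c' := pf_eq_self fun l hl x hx => hp1 x ((hc'P l hl).2 x hx)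
  have hnear : ∀ x : N, (∃ l' ∈ c'.support, ∃ x' ∈ l', dist x x' < κ₁) →
      p x ∈ B ∩ closedBall y₀ R ∧ dist x (p x) < κ₁ := by
    rintro x ⟨l', hl', x', hx', hxx⟩
    obtain ⟨h1, h2⟩ := hp2 x ⟨x', (hc'P l' hl').2 x' hx', hxx⟩
    refine ⟨⟨h1, ?_⟩, h2⟩
    have h3 : dist x' y₀ < r₀ := (hc'P l' hl').1 x' hx'
    rw [mem_closedBall]
    have h4 := dist_triangle (p x) x y₀
    have h5 := dist_triangle x x' y₀
    rw [dist_comm (p x) x] at h4
    linarith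
  have hsmp : ∀ l : List N, Sm κ₁ l → (∀ x ∈ l, dist x (p x) < κ₁) → Sm κ₂ (l.map p) := by
    intro l hl hd a ha b hb'
    obtain ⟨x, hx, rfl⟩ := List.mem_map.1 ha
    obtain ⟨y, hy, rfl⟩ := List.mem_map.1 hb'
    have h1 := hl x hx y hy
    have h2 := hd x hx
    have h3 := hd y hy
    have h5 := dist_triangle4 (p x) x y (p y)
    rw [dist_comm (p x) x] at h5
    linarith
  refine ⟨pf p e, pf p cm, by rw [bd_pf, ← map_add, ← hce, hpc], ?_, ?_⟩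
  · refine Sup.pf p (he.mono fun l hl => ⟨by rw [List.length_map]; exact hl.1,
      hsmp l hl.2.1 fun x hx => (hnear x (hl.2.2 x hx)).2, fun a ha => ?_⟩)
    obtain ⟨x, hx, rfl⟩ := List.mem_map.1 ha
    exact (hnear x (hl.2.2 x hx)).1
  · refine Sup.pf p (hcm.mono fun l hl => ?_)
    obtain ⟨h1, h2, h4', h5⟩ := hl
    refine ⟨by rw [List.length_map]; exact h1, hsmp l h2 fun x hx => (hnear x (h5 x hx)).2,
      fun a ha => ?_, fun a ha => ?_⟩
    · obtain ⟨x, hx, rfl⟩ := List.mem_map.1 ha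
      exact (hnear x (h5 x hx)).1
    · obtain ⟨x, hx, rfl⟩ := List.mem_map.1 ha
      have h6 := h4' x hx y₀ (mem_singleton _)
      have h7 := (hnear x (h5 x hx)).2
      have h8 := dist_triangle x (p x) y₀
      linarith

/-- lifting a homology through a map with cell-like fibres -/
theorem lift_chain {n : ℕ} {f : M → N} {A : Set M} {K : Set N} {y₀ : N} {κ ε s s₀ η : ℝ}
    {Ψ : List (M ⊕ N) → Ch (ZMod 2) M}
    (hΨ : ∀ l, Gm f A K κ l → l.length ≤ n + 2 →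
        (∀ l₀ : List M, l = l₀.map Sum.inl → Sm s₀ l₀ → Ψ l = Finsupp.single l₀ 1) ∧
        bd (Ψ l) = ext Ψ (bdL (ZMod 2) l) ∧
        Sup (fun m => m.length = l.length ∧ Sm s m ∧ ∀ z ∈ l, In (Pn f A ε (qm f z)) m) (Ψ l))
    {c1 : Ch (ZMod 2) M}
    (hc1P : Sup (fun l => l.length = n + 1 ∧ Sm s₀ l ∧ In A l ∧ Sm κ (l.map f) ∧
      ∀ x ∈ l, f x ∈ K) c1)
    (hb : Sup (fun l => ∀ x ∈ l, η ≤ dist (f x) y₀) (bd c1)) {e' cm' : Ch (ZMod 2) N}
    (hce' : pf f c1 = bd e' + cm')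
    (he' : Sup (fun l => l.length = n + 2 ∧ Sm κ l ∧ ∀ y ∈ l, y ∈ K) e')
    (hcm' : Sup (fun l => l.length = n + 1 ∧ Sm κ l ∧ (∀ y ∈ l, y ∈ K) ∧
        ∀ y ∈ l, η ≤ dist y y₀) cm') :
    ∃ E C : Ch (ZMod 2) M, c1 = bd E + C ∧ Sup (Sm s) E ∧
      Sup (fun m => Sm s m ∧ ∃ y ∈ m, η - ε ≤ dist (f y) y₀) C := by
  have hbd1P : Sup (fun l => l.length = n ∧ In A l ∧ Sm κ (l.map f) ∧ ∀ x ∈ l, f x ∈ K)
      (bd c1) := by
    refine Sup.bd (fun l l' hs hlen hl => ⟨by have := hl.1; omega, fun x hx =>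
      hl.2.2.1 x (hs.subset hx), fun a ha b hb' => hl.2.2.2.1 a ((hs.map f).subset ha) b
        ((hs.map f).subset hb'), fun a ha => hl.2.2.2.2 a (hs.subset ha)⟩) hc1P
  set P : List (M ⊕ N) → Prop := fun l => Gm f A K κ l ∧ l.length ≤ n + 2 with hPdef
  have hΨP : ∀ l, P l → bd (Ψ l) = ext Ψ (bdL (ZMod 2) l) := fun l hl => (hΨ l hl.1 hl.2).2.1
  have hlift : ∀ l, P l → Sup (fun m => m.length = l.length ∧ Sm s m ∧
      ∀ z ∈ l, In (Pn f A ε (qm f z)) m) (Ψ l) := fun l hl => (hΨ l hl.1 hl.2).2.2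
  set T := pr (Sum.inl : M → M ⊕ N) (Sum.inr ∘ f) c1 with hTdef
  set T' := pr (Sum.inl : M → M ⊕ N) (Sum.inr ∘ f) (bd c1) with hT'def
  have hTP : Sup P T := by
    intro m hm
    obtain ⟨l, hl, hlen, hml⟩ := Box.sup_pr _ _ c1 m hm
    obtain ⟨h1, h2, h3, h4, h5⟩ := hc1P l hl
    exact ⟨gm_of hml h3 h5 h4, by omega⟩
  have hT'P : Sup (fun m => P m ∧ m.length = n + 1 ∧ ∀ z ∈ m, η ≤ dist (qm f z) y₀) T' := by
    intro m hm
    obtain ⟨l, hl, hlen, hml⟩ := Box.sup_pr _ _ (bd c1) m hm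
    obtain ⟨h1, h3, h4, h5⟩ := hbd1P l hl
    refine ⟨⟨gm_of hml h3 h5 h4, by omega⟩, by omega, fun z hz => ?_⟩
    obtain ⟨x, hx, rfl | rfl⟩ := hml z hz
    · exact hb l hl x hx
    · exact hb l hl x hx
  have hEP : Sup P (pf (Sum.inr : N → M ⊕ N) e') := by
    refine Sup.pf _ (he'.mono fun l hl => ⟨gm_inr hl.2.2 hl.2.1, ?_⟩)
    rw [List.length_map, hl.1]
  have hCP : Sup (fun m => P m ∧ m.length = n + 1 ∧ ∀ z ∈ m, η ≤ dist (qm f z) y₀)
      (pf (Sum.inr : N → M ⊕ N) cm') := by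
    refine Sup.pf _ (hcm'.mono fun l hl => ⟨⟨gm_inr hl.2.2.1 hl.2.1, ?_⟩, ?_, fun z hz => ?_⟩)
    · rw [List.length_map, hl.1]; omega
    · rw [List.length_map, hl.1]
    · obtain ⟨y, hy, rfl⟩ := List.mem_map.1 hz
      exact hl.2.2.2 y hy
  have hpure : ext Ψ (pf Sum.inl c1) = c1 := by
    rw [Chart.ext_pf]
    have h1 := ext_congr hc1P (u := fun l => Ψ (l.map Sum.inl))
      (v := fun l => Finsupp.single l (1 : ZMod 2)) (fun l hl => by
        obtain ⟨h1, h2, h3, h4, h5⟩ := hl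
        refine (hΨ (l.map Sum.inl) (gm_of (l := l) (fun z hz => ?_) h3 h5 h4)
          (by rw [List.length_map, h1]; omega)).1 l rfl h2
        obtain ⟨x, hx, rfl⟩ := List.mem_map.1 hz
        exact ⟨x, hx, Or.inl rfl⟩)
    rw [h1, SupA.ext_self]
  have hinr : ext Ψ (pf (Sum.inr ∘ f) c1) = ext Ψ (pf (Sum.inr : N → M ⊕ N) (pf f c1)) := by
    rw [Chart.ext_pf, Chart.ext_pf, Chart.ext_pf]
    simp only [List.map_map]
  have hprism : ext Ψ (bd T) + ext Ψ T' = ext Ψ (pf (Sum.inr ∘ f) c1) - c1 := by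
    rw [← map_add, hTdef, hT'def, bd_pr, map_sub, hpure]
  have h1 : ext Ψ (pf (Sum.inr ∘ f) c1) = bd (ext Ψ (pf (Sum.inr : N → M ⊕ N) e')) +
      ext Ψ (pf (Sum.inr : N → M ⊕ N) cm') := by
    rw [hinr, psi_chain hΨP hEP, bd_pf, ← map_add, ← map_add, ← hce']
  refine ⟨ext Ψ (pf (Sum.inr : N → M ⊕ N) e') - ext Ψ T,
    ext Ψ (pf (Sum.inr : N → M ⊕ N) cm') - ext Ψ T', ?_, ?_, ?_⟩
  · rw [map_sub, psi_chain hΨP hTP]
    rw [h1] at hprism
    have h2 : c1 = bd (ext Ψ (pf (Sum.inr : N → M ⊕ N) e')) +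
      ext Ψ (pf (Sum.inr : N → M ⊕ N) cm') - (ext Ψ (bd T) + ext Ψ T') := by
      rw [hprism]; abel
    calc c1 = _ := h2
      _ = _ := by abel
  · refine Sup.sub ?_ ?_
    · exact Sup.ext hEP fun l hl => (hlift l hl).mono fun m hm => hm.2.1
    · exact Sup.ext hTP fun l hl => (hlift l hl).mono fun m hm => hm.2.1
  · have hdist : ∀ (l : List (M ⊕ N)) (m : List M), l.length = n + 1 →
        m.length = l.length → (∀ z ∈ l, In (Pn f A ε (qm f z)) m) →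
        (∀ z ∈ l, η ≤ dist (qm f z) y₀) → ∃ y ∈ m, η - ε ≤ dist (f y) y₀ := by
      intro l m hl hm h1 h2
      have hmne : m ≠ [] := by
        intro h
        rw [h] at hm
        simp only [List.length_nil] at hm
        omega
      have hlne : l ≠ [] := by
        intro h
        rw [h] at hl
        simp only [List.length_nil] at hl
        omega
      obtain ⟨y, hy⟩ := List.exists_mem_of_ne_nil m hmne
      obtain ⟨z, hz⟩ := List.exists_mem_of_ne_nil l hlne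
      refine ⟨y, hy, ?_⟩
      have h3 := (h1 z hz y hy).2
      have h4 := h2 z hz
      have h5 := dist_triangle (qm f z) (f y) y₀
      rw [dist_comm (qm f z) (f y)] at h5
      linarith
    refine Sup.sub ?_ ?_
    · exact Sup.ext hCP fun l hl => (hlift l hl.1).mono fun m hm =>
        ⟨hm.2.1, hdist l m hl.2.1 hm.1 hm.2.2 hl.2.2⟩
    · exact Sup.ext hT'P fun l hl => (hlift l hl.1).mono fun m hm =>
        ⟨hm.2.1, hdist l m hl.2.1 hm.1 hm.2.2 hl.2.2⟩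

/-- **Local degree of a map with cell-like fibres.** -/
theorem vietoris {n : ℕ} (hn : 0 < n) [CompactSpace M] {f : M → N} (hf : Continuous f)
    {A : Set M} {y₀ : N} {β : (Fin n → ℝ) → N} (hβ : IsOpenEmbedding β) (hy₀ : y₀ ∈ β '' Q n 2)
    {R : ℝ} (hR : 0 < R) (hF : UFill f A (f '' A ∩ closedBall y₀ R))
    {γ : (Fin n → ℝ) → M} (hγ : IsOpenEmbedding γ) {x₀ : M} (hx₀ : x₀ ∈ γ '' Q n 2)
    (hfx : f x₀ = y₀) {ρ : ℝ} (hρ : 0 < ρ) :
    ∃ κ > 0, ∀ c : Ch (ZMod 2) M, Sup (fun l => l.length = n + 1 ∧ Sm κ l ∧ In A l) c →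
      Sup (fun l => ∀ x ∈ l, ρ ≤ dist (f x) y₀) (bd c) → dg β (pf f c) y₀ = 0 →
      dg γ c x₀ = 0 := by
  classical
  obtain ⟨ρ₁, hρ₁, hle, hball⟩ := ball_chart hβ hy₀ (ρ := min ρ R / 4)
    (by have := lt_min hρ hR; linarith)
  have hρ₁ρ : ρ₁ ≤ ρ := by have := min_le_left ρ R; linarith
  have hρ₁R : ρ₁ ≤ R := by have := min_le_right ρ R; linarith
  obtain ⟨r, hr, κa, hκa, hcell⟩ := inv_cell hn hβ hρ₁
  obtain ⟨r', hr', hr'r, hr'ρ⟩ : ∃ r' > 0, r' ≤ r ∧ r' ≤ ρ₁ / 4 :=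
    ⟨min r (ρ₁ / 4), lt_min hr (by linarith), min_le_left _ _, min_le_right _ _⟩
  obtain ⟨κΨ, hκΨ, hpsi⟩ := exists_psi hF (n + 2) (r' / 4) (by linarith)
  obtain ⟨κ₁, hκ1, hκ₁a, hκ₁b⟩ : ∃ κ₁ > 0, 4 * κ₁ ≤ κΨ ∧ κ₁ ≤ r' / 4 :=
    ⟨min (κΨ / 4) (r' / 4), lt_min (by linarith) (by linarith),
      by have := min_le_left (κΨ / 4) (r' / 4); linarith, min_le_right _ _⟩
  obtain ⟨κL, hκL, hLD⟩ := ld1S hn hβ κ₁ hκ1
  obtain ⟨kg, hkg, hfarβ⟩ := dg_far hβ (show (0 : ℝ) < ρ₁ / 2 by linarith)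
  have hfu : UniformContinuous f := CompactSpace.uniformContinuous_of_continuous hf
  obtain ⟨ρx, hρx, hux⟩ := Metric.uniformContinuous_iff.1 hfu (r' / 4) (by linarith)
  obtain ⟨kb, hkb, hbdγ⟩ := dg_bd hγ
  obtain ⟨kf, hkf, hfarγ⟩ := dg_far hγ hρx
  obtain ⟨s₀, hs₀, Ψ, hΨ⟩ := hpsi (min kb kf) (lt_min hkb hkf)
  obtain ⟨κc, hκc, c1a, c1b, c1c, c1d, c1e⟩ : ∃ κc > 0, κc ≤ κa ∧ κc ≤ κL ∧ κc ≤ κΨ ∧
      κc ≤ ρ₁ / 4 ∧ κc ≤ kg :=
    ⟨min (min κa κL) (min κΨ (min (ρ₁ / 4) kg)), lt_min (lt_min hκa hκL)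
      (lt_min hκΨ (lt_min (by linarith) hkg)), (min_le_left _ _).trans (min_le_left _ _),
      (min_le_left _ _).trans (min_le_right _ _), (min_le_right _ _).trans (min_le_left _ _),
      (min_le_right _ _).trans ((min_le_right _ _).trans (min_le_left _ _)),
      (min_le_right _ _).trans ((min_le_right _ _).trans (min_le_right _ _))⟩
  obtain ⟨δf, hδf, huf⟩ := Metric.uniformContinuous_iff.1 hfu κc hκc
  refine ⟨min δf (min s₀ kf), lt_min hδf (lt_min hs₀ hkf), fun c hc hb h0 => ?_⟩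
  -- the part near the fibre
  set c1 : Ch (ZMod 2) M := c.filter (fun l => In (ball y₀ (ρ₁ / 2)) (l.map f)) with hc1def
  set c2 : Ch (ZMod 2) M := c.filter (fun l => ¬ In (ball y₀ (ρ₁ / 2)) (l.map f)) with hc2def
  have hsum : c1 + c2 = c :=
    Finsupp.filter_add_filter_not c (fun l => In (ball y₀ (ρ₁ / 2)) (l.map f))
  have hs1 : ∀ l ∈ c1.support, l ∈ c.support ∧ In (ball y₀ (ρ₁ / 2)) (l.map f) := by
    intro l hl
    rwa [hc1def, Finsupp.support_filter, Finset.mem_filter] at hl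
  have hs2 : ∀ l ∈ c2.support, l ∈ c.support ∧ ¬ In (ball y₀ (ρ₁ / 2)) (l.map f) := by
    intro l hl
    rwa [hc2def, Finsupp.support_filter, Finset.mem_filter] at hl
  have hsmf : ∀ l ∈ c.support, Sm κc (l.map f) := by
    intro l hl a ha b hb'
    obtain ⟨x, hx, rfl⟩ := List.mem_map.1 ha
    obtain ⟨y, hy, rfl⟩ := List.mem_map.1 hb'
    exact huf (((hc l hl).2.1 x hx y hy).trans_le (min_le_left _ _))
  have hout : ∀ l ∈ c2.support, ∃ x ∈ l, ρ₁ / 2 ≤ dist (f x) y₀ := by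
    intro l hl
    have h := (hs2 l hl).2
    unfold In at h
    push Not at h
    obtain ⟨y, hy, hyb⟩ := h
    obtain ⟨x, hx, rfl⟩ := List.mem_map.1 hy
    exact ⟨x, hx, not_lt.1 hyb⟩
  -- degrees
  have hxQ : x₀ ∈ γ '' Q n 7 := Q_sub (by norm_num) hx₀
  have hyQ : y₀ ∈ β '' Q n 7 := Q_sub (by norm_num) hy₀
  have hfarx : ∀ x : M, r' / 4 ≤ dist (f x) y₀ → ρx ≤ dist x₀ x := by
    intro x hx
    by_contra hlt
    have := hux (not_le.1 hlt)
    rw [hfx, dist_comm] at this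
    linarith
  have hdγ : dg γ c x₀ = dg γ c1 x₀ := by
    have h2 : dg γ c2 x₀ = 0 := by
      refine (hfarγ c2 x₀ hxQ fun l hl => ⟨sm_mono ((min_le_right _ _).trans (min_le_right _ _))
        (hc l (hs2 l hl).1).2.1, ?_⟩).1
      obtain ⟨x, hx, h⟩ := hout l hl
      exact ⟨x, hx, hfarx x (by linarith)⟩
    rw [← hsum, inv_dg_add, h2, add_zero]
  have hdβ : dg β (pf f c1) y₀ = 0 := by
    have h2 : dg β (pf f c2) y₀ = 0 := by
      refine (hfarβ (pf f c2) y₀ hyQ (Sup.pf f fun l hl => ⟨sm_mono c1e (hsmf l (hs2 l hl).1), ?_⟩)).1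
      obtain ⟨x, hx, h⟩ := hout l hl
      exact ⟨f x, List.mem_map_of_mem hx, by rw [dist_comm]; exact h⟩
    rw [← hsum, map_add, inv_dg_add, h2, add_zero] at h0
    exact h0
  -- the boundary
  have hbd1 : Sup (fun l => ∀ x ∈ l, ρ₁ / 4 ≤ dist (f x) y₀) (bd c1) := by
    intro l hl x hx
    by_contra hlt
    rw [not_le] at hlt
    have h1 := mem_bd_filter hl hx (fun l' hl' hxl' a ha => by
      obtain ⟨w, hw, rfl⟩ := List.mem_map.1 ha
      rw [mem_ball]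
      have h2 := hsmf l' hl' (f w) (List.mem_map_of_mem hw) (f x) (List.mem_map_of_mem hxl')
      have h3 := dist_triangle (f w) (f x) y₀
      linarith)
    have h4 := hb l h1 x hx
    linarith
  have hc'P : Sup (fun l => l.length = n + 1 ∧ Sm κc l ∧ In (ball y₀ (ρ₁ / 2)) l ∧
      In (f '' A) l) (pf f c1) := by
    refine Sup.pf f fun l hl => ⟨by rw [List.length_map]; exact (hc l (hs1 l hl).1).1,
      hsmf l (hs1 l hl).1, (hs1 l hl).2, fun a ha => ?_⟩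
    obtain ⟨x, hx, rfl⟩ := List.mem_map.1 ha
    exact mem_image_of_mem f ((hc l (hs1 l hl).1).2.2 x hx)
  have hc'b : Sup (Far (ρ₁ / 4) {y₀}) (bd (pf f c1)) := by
    rw [bd_pf]
    refine Sup.pf f (hbd1.mono fun l hl a ha z hz => ?_)
    rw [mem_singleton_iff] at hz
    obtain ⟨x, hx, rfl⟩ := List.mem_map.1 ha
    rw [hz]
    exact hl x hx
  obtain ⟨e, cm, hce, he, hcm⟩ := hLD (pf f c1)
    (hc'P.mono fun l hl => ⟨hl.1, sm_mono c1b hl.2.1, fun x hx =>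
      Q_sub (by norm_num) (hball (ball_subset_ball (by linarith) (hl.2.2.1 x hx)))⟩)
    {y₀} r' (by linarith) (hc'b.mono fun l hl a ha z hz => hr'ρ.trans (hl a ha z hz)) (by
      rintro y ⟨z, hz, hyz⟩
      rw [mem_singleton_iff] at hz
      subst hz
      rw [hcell (pf f c1) z hy₀ (hc'P.mono fun l hl => ⟨hl.1, sm_mono c1a hl.2.1, hl.2.2.1⟩)
        (hball.trans (Q_sub (by norm_num))) hc'b y (hyz.trans_le hr'r)]
      exact hdβ)
  obtain ⟨e', cm', hce', he', hcm'⟩ := move_chain (n := n) (B := f '' A) (y₀ := y₀) (κ₁ := κ₁)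
    (κ₂ := κΨ) (r₀ := ρ₁ / 2) (R := R) (r' := r') hκ1 hκ₁a (by linarith)
    (hc'P.mono fun l hl => ⟨hl.2.2.1, hl.2.2.2⟩) hce
    (he.mono fun l hl => ⟨hl.1, hl.2.1, hl.2.2.2⟩)
    (hcm.mono fun l hl => ⟨hl.1, hl.2.1, hl.2.2.2.1, hl.2.2.2.2⟩)
  obtain ⟨E, C, hEC, hE, hC⟩ := lift_chain (n := n) (η := r' / 2) (y₀ := y₀) hΨ (c1 := c1)
    (fun l hl => ⟨(hc l (hs1 l hl).1).1, sm_mono ((min_le_right _ _).trans (min_le_left _ _))
      (hc l (hs1 l hl).1).2.1, (hc l (hs1 l hl).1).2.2, sm_mono c1c (hsmf l (hs1 l hl).1),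
      fun x hx => ⟨mem_image_of_mem f ((hc l (hs1 l hl).1).2.2 x hx), by
        have h3 : dist (f x) y₀ < ρ₁ / 2 := (hs1 l hl).2 (f x) (List.mem_map_of_mem hx)
        rw [mem_closedBall]
        linarith⟩⟩)
    (hbd1.mono fun l hl x hx => le_trans (by linarith) (hl x hx)) hce' he'
    (hcm'.mono fun l hl => ⟨hl.1, hl.2.1, hl.2.2.1, fun y hy =>
      le_trans (by linarith) (hl.2.2.2 y hy)⟩)
  rw [hdγ, hEC, inv_dg_add, (hbdγ E (hE.mono fun l hl => sm_mono (min_le_left _ _) hl) x₀ hxQ).1,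
    (hfarγ C x₀ hxQ (hC.mono fun l hl => ⟨sm_mono (min_le_right _ _) hl.1, ?_⟩)).1, add_zero]
  obtain ⟨y, hy, h⟩ := hl.2
  exact ⟨y, hy, hfarx y (by linarith)⟩

end Viet

end Vale.Agent.P260
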